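import Crest.Agent.R32.Orbit

/-! Row 32: a cap in `𝔽_r³` and linear relations among its points. -/

set_option autoImplicit false

namespace Crest.Agent.R32

open Finset Matrix

/-- the matrix with columns `s (x j)` -/
def cols {X R : Type*} (s : X → Fin 3 → R) (x : Fin 3 → X) : Matrix (Fin 3) (Fin 3) R :=
  of fun i j => s (x j) i

/-- number of triples satisfying the linear relation `κ` -/
def zc {X R : Type*} [Fintype X] [CommRing R] [DecidableEq R] (s : X → Fin 3 → R)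
    (κ : Fin 3 → R) : ℕ := #{x : Fin 3 → X | cols s x *ᵥ κ = 0}

lemma cols_mulVec {X R : Type*} [CommRing R] {s : X → Fin 3 → R} {x : Fin 3 → X} {κ : Fin 3 → R}
    (h : cols s x *ᵥ κ = 0) (i : Fin 3) : ∑ j, s (x j) i * κ j = 0 := congrFun h i

variable {F : Type*} [Field F] [Fintype F] [DecidableEq F]

def cap (β : F) (w : F × F) : Fin 3 → F := ![w.1, w.2, w.1 ^ 2 - β * w.2 ^ 2 + 1]

omit [Fintype F] [DecidableEq F] in
lemma cap_ne_zero (β : F) (w : F × F) : ∃ a, cap β w a ≠ 0 := by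
  by_contra hcon
  push Not at hcon
  have h0 : w.1 = 0 := hcon 0
  have h1 : w.2 = 0 := hcon 1
  have h2 : w.1 ^ 2 - β * w.2 ^ 2 + 1 = 0 := hcon 2
  simp [h0, h1] at h2

lemma card_V {κ : Fin 3 → F} (hκ : κ ≠ 0) :
    #{τ : Fin 3 → F × F | ∑ j, (τ j).1 * κ j = 0 ∧ ∑ j, (τ j).2 * κ j = 0} ≤
      Fintype.card F ^ 4 := by
  obtain ⟨a, ha⟩ := Function.ne_iff.1 hκ
  have e : Fintype.card F ^ 4 = #(univ : Finset (Fin 2 → F × F)) := by simp; ring
  rw [e]
  refine card_le_card_of_injOn (fun τ j => τ (a.succAbove j)) (fun _ _ => mem_coe.2 (mem_univ _))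
    (fun τ hτ τ' hτ' e => ?_)
  obtain ⟨a1, a2⟩ := (mem_filter.1 (mem_coe.1 hτ)).2
  obtain ⟨b1, b2⟩ := (mem_filter.1 (mem_coe.1 hτ')).2
  have e' : ∀ j, τ (a.succAbove j) = τ' (a.succAbove j) := congrFun e
  have h1 := a1.trans b1.symm
  have h2 := a2.trans b2.symm
  simp only [Fin.sum_univ_succAbove _ a, e', add_left_inj] at h1 h2
  funext x
  exact Fin.succAboveCases a (Prod.ext (mul_right_cancel₀ ha h1) (mul_right_cancel₀ ha h2)) e' x

lemma zc_cap_four (β : F) {κ : Fin 3 → F} (hκ : κ ≠ 0) : zc (cap β) κ ≤ Fintype.card F ^ 4 := by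
  refine le_trans (card_le_card fun τ hτ => ?_) (card_V hκ)
  have h := cols_mulVec (mem_filter.1 hτ).2
  exact mem_filter.2 ⟨mem_univ _, h 0, h 1⟩

lemma zc_cap_two {β : F} (hβ : ¬ IsSquare β) {κ : Fin 3 → F} (hs : ∑ j, κ j = 0)
    (hκ : ∀ j, κ j ≠ 0) : zc (cap β) κ ≤ Fintype.card F ^ 2 := by
  have e : Fintype.card F ^ 2 = #(univ : Finset (F × F)) := by simp [sq]
  have hN : ∀ a b : F, a ^ 2 - β * b ^ 2 = 0 → a = 0 ∧ b = 0 := fun a b h => by
    by_cases hb : b = 0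
    · subst hb
      exact ⟨by simpa using h, rfl⟩
    · exact absurd ⟨a / b, by field_simp; linear_combination -h⟩ hβ
  have key : ∀ τ : Fin 3 → F × F, cols (cap β) τ *ᵥ κ = 0 → ∀ j, τ j = τ 2 := fun τ hτ => by
    have h := cols_mulVec hτ
    have h0 := h 0; have h1 := h 1; have h2 := h 2
    simp only [Fin.sum_univ_three, cap, cons_val_zero, cons_val_one, Matrix.cons_val]
      at h0 h1 h2 hs
    have k2 : κ 2 = -κ 0 - κ 1 := by linear_combination hs
    have a1 : κ 0 * κ 2 * (((τ 0).1 - (τ 2).1) ^ 2 - β * ((τ 0).2 - (τ 2).2) ^ 2) = 0 := by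
      rw [k2] at h0 h1 h2 ⊢
      linear_combination (-κ 1) * h2 +
        (κ 1 * ((τ 1).1 - (τ 2).1) - κ 0 * ((τ 0).1 - (τ 2).1) + 2 * κ 1 * (τ 2).1) * h0 -
        β * (κ 1 * ((τ 1).2 - (τ 2).2) - κ 0 * ((τ 0).2 - (τ 2).2) + 2 * κ 1 * (τ 2).2) * h1
    obtain ⟨b1, b2⟩ := hN _ _ ((mul_eq_zero.1 a1).resolve_left (mul_ne_zero (hκ 0) (hκ 2)))
    have c1 : κ 1 * ((τ 1).1 - (τ 2).1) = 0 := by
      rw [k2] at h0; linear_combination h0 - κ 0 * b1
    have c2 : κ 1 * ((τ 1).2 - (τ 2).2) = 0 := by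
      rw [k2] at h1; linear_combination h1 - κ 0 * b2
    intro j
    fin_cases j
    · exact Prod.ext (sub_eq_zero.1 b1) (sub_eq_zero.1 b2)
    · exact Prod.ext (sub_eq_zero.1 ((mul_eq_zero.1 c1).resolve_left (hκ 1)))
        (sub_eq_zero.1 ((mul_eq_zero.1 c2).resolve_left (hκ 1)))
    · rfl
  rw [e, zc]
  refine card_le_card_of_injOn (fun τ => τ 2) (fun _ _ => mem_coe.2 (mem_univ _))
    (fun τ hτ τ' hτ' e => funext fun j => ?_)
  rw [key τ (mem_filter.1 (mem_coe.1 hτ)).2 j, key τ' (mem_filter.1 (mem_coe.1 hτ')).2 j]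
  exact e

lemma zc_cap_three (β : F) {κ : Fin 3 → F} (hs : ∑ j, κ j ≠ 0) :
    zc (cap β) κ ≤ 4 * Fintype.card F ^ 3 := by
  have hκ : κ ≠ 0 := fun h => hs (by simp [h])
  have h1 : #((univ.erase (0 : F)) ×ˢ
      ({τ : Fin 3 → F × F | cols (cap β) τ *ᵥ κ = 0} : Finset _)) ≤
      2 * #{τ : Fin 3 → F × F | ∑ j, (τ j).1 * κ j = 0 ∧ ∑ j, (τ j).2 * κ j = 0} := by
    refine card_le_mul_card_image_of_maps_to
      (f := fun (p : F × (Fin 3 → F × F)) j => (p.1 * (p.2 j).1, p.1 * (p.2 j).2))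
      (fun p hp => ?_) 2 fun v _ => ?_
    · have h := cols_mulVec (mem_filter.1 (mem_product.1 hp).2).2
      have h0 := h 0; have h1 := h 1
      simp only [Fin.sum_univ_three, cap, cons_val_zero, cons_val_one] at h0 h1
      simp only [mem_filter, mem_univ, true_and, Fin.sum_univ_three]
      exact ⟨by linear_combination p.1 * h0, by linear_combination p.1 * h1⟩
    · rcases eq_empty_or_nonempty {p ∈ (univ.erase (0 : F)) ×ˢ
        ({τ : Fin 3 → F × F | cols (cap β) τ *ᵥ κ = 0} : Finset _) |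
          (fun j => (p.1 * (p.2 j).1, p.1 * (p.2 j).2)) = v} with h0 | ⟨p₀, hp₀⟩
      · rw [h0]; simp
      have hq : ∀ p ∈ {p ∈ (univ.erase (0 : F)) ×ˢ
          ({τ : Fin 3 → F × F | cols (cap β) τ *ᵥ κ = 0} : Finset _) |
            (fun j => (p.1 * (p.2 j).1, p.1 * (p.2 j).2)) = v},
          p.1 ^ 2 * ∑ j, κ j = -∑ j, ((v j).1 ^ 2 - β * (v j).2 ^ 2) * κ j := fun p hp => by
        obtain ⟨a1, a2⟩ := mem_filter.1 hp
        have h := cols_mulVec (mem_filter.1 (mem_product.1 a1).2).2 2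
        rw [← a2]
        simp only [Fin.sum_univ_three, cap, Matrix.cons_val] at h ⊢
        linear_combination p.1 ^ 2 * h
      refine le_trans (card_le_card_of_injOn (t := {p₀.1, -p₀.1}) Prod.fst (fun p hp => ?_)
        (fun p hp p' hp' e => ?_)) card_le_two
      · have := mul_right_cancel₀ hs ((hq p hp).trans (hq p₀ hp₀).symm)
        simpa using sq_eq_sq_iff_eq_or_eq_neg.1 this
      · obtain ⟨a1, a2⟩ := mem_filter.1 (mem_coe.1 hp)
        obtain ⟨-, b2⟩ := mem_filter.1 (mem_coe.1 hp')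
        have h0 : p.1 ≠ 0 := (mem_erase.1 (mem_product.1 a1).1).1
        refine Prod.ext e (funext fun j => ?_)
        have := congrFun (a2.trans b2.symm) j
        simp only [← e, Prod.mk.injEq] at this
        exact Prod.ext (mul_left_cancel₀ h0 this.1) (mul_left_cancel₀ h0 this.2)
  rw [card_product, card_erase_of_mem (mem_univ _), card_univ] at h1
  have h2 := h1.trans (Nat.mul_le_mul_left 2 (card_V hκ))
  have h4 : Fintype.card F ≤ 2 * (Fintype.card F - 1) := by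
    have := Fintype.one_lt_card (α := F); omega
  refine Nat.le_of_mul_le_mul_left (c := Fintype.card F) ?_ Fintype.card_pos
  calc _ ≤ 2 * (Fintype.card F - 1) * zc (cap β) κ := Nat.mul_le_mul_right _ h4
    _ = 2 * ((Fintype.card F - 1) * zc (cap β) κ) := by ring
    _ ≤ 2 * (2 * Fintype.card F ^ 4) := Nat.mul_le_mul_left _ h2
    _ = _ := by ring

lemma card_exc :
    #{κ : Fin 3 → F | ∑ j, κ j = 0 ∧ ∃ j, κ j = 0} ≤ 3 * Fintype.card F := by
  have e : 3 * Fintype.card F = #(univ : Finset (Fin 3 × F)) := by simp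
  rw [e]
  refine le_trans (card_le_card (t := univ.image fun p : Fin 3 × F =>
    ![![0, p.2, -p.2], ![p.2, 0, -p.2], ![p.2, -p.2, 0]] p.1) fun κ hκ => ?_) card_image_le
  obtain ⟨hs, j, hj⟩ := (mem_filter.1 hκ).2
  rw [Fin.sum_univ_three] at hs
  simp only [mem_image, mem_univ, true_and]
  fin_cases j
  · refine ⟨(0, κ 1), funext fun i => ?_⟩
    have hj : κ 0 = 0 := hj
    fin_cases i
    · exact hj.symm
    · rfl
    · change -κ 1 = κ 2
      rw [hj, zero_add] at hs; exact neg_eq_of_add_eq_zero_right hs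
  · refine ⟨(1, κ 0), funext fun i => ?_⟩
    have hj : κ 1 = 0 := hj
    fin_cases i
    · rfl
    · exact hj.symm
    · change -κ 0 = κ 2
      rw [hj, add_zero] at hs; exact neg_eq_of_add_eq_zero_right hs
  · refine ⟨(2, κ 0), funext fun i => ?_⟩
    have hj : κ 2 = 0 := hj
    fin_cases i
    · rfl
    · change -κ 0 = κ 1
      rw [hj, add_zero] at hs; exact neg_eq_of_add_eq_zero_right hs
    · exact hj.symm

end Crest.Agent.R32
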