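import Crest.Agent.R32.Weight

/-! Row 32: counting integer matrices with a given determinant or a given relation. -/

set_option autoImplicit false

namespace Crest.Agent.R32

open Finset Matrix

/-- integer matrices with entries in `[0, R]` -/
noncomputable def mats (R : ℕ) : Finset (Matrix (Fin 3) (Fin 3) ℤ) :=
  Fintype.piFinset fun _ => Fintype.piFinset fun _ => Icc (0 : ℤ) R

lemma mem_mats {R : ℕ} {Z : Matrix (Fin 3) (Fin 3) ℤ} :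
    Z ∈ mats R ↔ ∀ i j, 0 ≤ Z i j ∧ Z i j ≤ R :=
  Fintype.mem_piFinset.trans (forall_congr' fun _ => Fintype.mem_piFinset.trans
    (forall_congr' fun _ => mem_Icc))

lemma nrm_row {R : ℕ} {Z : Matrix (Fin 3) (Fin 3) ℤ} (h : Z ∈ mats R) (i : Fin 3) :
    nrm (Z i) ≤ R :=
  nrm_le fun j => by have := mem_mats.1 h i j; rw [abs_le]; omega

lemma det_eq_dot {R : Type*} [CommRing R] (Z : Matrix (Fin 3) (Fin 3) R) :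
    Z.det = Z 2 ⬝ᵥ Z 0 ⨯₃ Z 1 := by
  rw [det_fin_three, cross_apply]
  simp [dotProduct, Fin.sum_univ_three]
  ring

lemma prim_of_cross {R : ℕ} {y z : Fin 3 → ℤ} (hy : nrm y ≤ R) (hz : nrm z ≤ R)
    (h : y ⨯₃ z ≠ 0) : ∃ (j : ℤ) (k : Fin 3 → ℤ), j ≠ 0 ∧ Prim k ∧ y ⨯₃ z = j • k ∧
      nrm k ≤ 2 * R ^ 2 := by
  obtain ⟨j, k, hj, hk, e⟩ := exists_prim h
  refine ⟨j, k, hj, hk, e, ?_⟩
  have h1 := nrm_cross y z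
  rw [e, nrm_smul] at h1
  calc nrm k ≤ j.natAbs * nrm k := Nat.le_mul_of_pos_left _ (Int.natAbs_pos.2 hj)
    _ ≤ 2 * (nrm y * nrm z) := h1
    _ ≤ 2 * (R * R) := by gcongr
    _ = _ := by ring

lemma perp_of_dot {y w k : Fin 3 → ℤ} {j : ℤ} (hj : j ≠ 0) (e : w = j • k) (h : y ⬝ᵥ w = 0) :
    y ⬝ᵥ k = 0 := by
  rw [e, dotProduct_smul, smul_eq_mul] at h
  exact (mul_eq_zero.1 h).resolve_left hj

lemma count_det_k (R : ℕ) {t : ℤ} (ht : t ≠ 0) {k : Fin 3 → ℤ} (hk : Prim k) :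
    (#{Z ∈ mats R | Z.det = t ∧ Z 0 ⬝ᵥ k = 0 ∧ Z 1 ⬝ᵥ k = 0} : ℝ) ≤
      (18 * R ^ 2) ^ 3 * (1 / (nrm k : ℝ) ^ 3) := by
  rcases eq_empty_or_nonempty {Z ∈ mats R | Z.det = t ∧ Z 0 ⬝ᵥ k = 0 ∧ Z 1 ⬝ᵥ k = 0} with
    h0 | ⟨Z₀, hZ₀⟩
  · rw [h0]; simp only [card_empty, Nat.cast_zero]; positivity
  obtain ⟨α, hα⟩ := hk
  have hcr : ∀ Z : Matrix (Fin 3) (Fin 3) ℤ, Z.det = t → Z 0 ⨯₃ Z 1 ≠ 0 := fun Z h h0 => ht (by
    rw [← h, det_eq_dot, h0, dotProduct_zero])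
  obtain ⟨m₀, d₀, a₀, b₀⟩ := mem_filter.1 hZ₀
  have hY := lattice_count (fun y => y ⬝ᵥ k = 0)
    (fun y z hy hz => by rw [sub_dotProduct, hy, hz, sub_zero]) k 1
    (fun y z hy hz => ⟨α ⬝ᵥ y ⨯₃ z, by rw [Nat.cast_one, one_mul]; exact cross_of_perp hα hy hz⟩)
    R (Z₀ 0) (Z₀ 1) a₀ b₀ (nrm_row m₀ 0) (nrm_row m₀ 1) (hcr Z₀ d₀)
  set Y := (box R).filter (fun y => y ⬝ᵥ k = 0) with hYdef
  have h1 : #{Z ∈ mats R | Z.det = t ∧ Z 0 ⬝ᵥ k = 0 ∧ Z 1 ⬝ᵥ k = 0} ≤ #Y * #(Y ×ˢ Y) := by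
    refine card_le_mul_card_image_of_maps_to (f := fun Z => (Z 0, Z 1)) (fun Z hZ => ?_) _
      fun v _ => ?_
    · obtain ⟨m, -, a, b⟩ := mem_filter.1 hZ
      exact mem_product.2 ⟨mem_filter.2 ⟨mem_box.2 (nrm_row m 0), a⟩,
        mem_filter.2 ⟨mem_box.2 (nrm_row m 1), b⟩⟩
    rcases eq_empty_or_nonempty {Z ∈ {Z ∈ mats R | Z.det = t ∧ Z 0 ⬝ᵥ k = 0 ∧ Z 1 ⬝ᵥ k = 0} |
      (Z 0, Z 1) = v} with h0 | ⟨Z₁, hZ₁⟩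
    · rw [h0]; simp
    obtain ⟨hZ₁', e₁⟩ := mem_filter.1 hZ₁
    obtain ⟨m₁, d₁, a₁, b₁⟩ := mem_filter.1 hZ₁'
    refine card_le_card_of_injOn (fun Z => Z 2 - Z₁ 2) (fun Z hZ => ?_) (fun Z hZ Z' hZ' e => ?_)
    · obtain ⟨hZ', e⟩ := mem_filter.1 (mem_coe.1 hZ)
      obtain ⟨m, d, -, -⟩ := mem_filter.1 hZ'
      obtain ⟨e0, e1⟩ := Prod.mk.inj (e.trans e₁.symm)
      refine mem_coe.2 (mem_filter.2 ⟨mem_box.2 (nrm_le fun j => ?_), ?_⟩)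
      · have := mem_mats.1 m 2 j
        have := mem_mats.1 m₁ 2 j
        change |Z 2 j - Z₁ 2 j| ≤ _
        rw [abs_le]; omega
      · have e2 := cross_of_perp hα a₁ b₁
        refine perp_of_dot (fun h => hcr Z₁ d₁ (by rw [e2, h, zero_smul])) e2 ?_
        rw [sub_dotProduct, ← det_eq_dot, ← e0, ← e1, ← det_eq_dot, d, d₁, sub_self]
    · obtain ⟨e0, e1⟩ := Prod.mk.inj ((mem_filter.1 (mem_coe.1 hZ)).2.trans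
        (mem_filter.1 (mem_coe.1 hZ')).2.symm)
      funext i
      fin_cases i
      exacts [e0, e1, sub_left_inj.1 e]
  rw [card_product] at h1
  have hk0 : (0 : ℝ) < nrm k := by exact_mod_cast nrm_pos (Prim.ne_zero ⟨α, hα⟩)
  have h2 : (#Y : ℝ) ≤ 18 * R ^ 2 / nrm k := by
    rw [le_div_iff₀ hk0]; rw [one_mul] at hY; exact_mod_cast hY
  calc _ ≤ (#Y : ℝ) * (#Y * #Y) := by exact_mod_cast h1
    _ = (#Y : ℝ) ^ 3 := by ring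
    _ ≤ (18 * R ^ 2 / nrm k) ^ 3 := by gcongr
    _ = _ := by ring

theorem count_det (R b S : ℕ) (hb : 1 ≤ b) (hS : 2 * R ^ 2 < b ^ S) {t : ℤ} (ht : t ≠ 0) :
    (#{Z ∈ mats R | Z.det = t} : ℝ) ≤ (18 * R ^ 2) ^ 3 * (S * (27 * b ^ 3)) := by
  classical
  set T := (box (2 * R ^ 2)).filter Prim with hT
  have h1 : {Z ∈ mats R | Z.det = t} ⊆ (T.filter fun k => nrm k < b ^ S).biUnion fun k =>
      {Z ∈ mats R | Z.det = t ∧ Z 0 ⬝ᵥ k = 0 ∧ Z 1 ⬝ᵥ k = 0} := fun Z hZ => by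
    obtain ⟨m, d⟩ := mem_filter.1 hZ
    obtain ⟨j, k, hj, hk, e, hn⟩ := prim_of_cross (nrm_row m 0) (nrm_row m 1) (fun h0 => ht (by
      rw [← d, det_eq_dot, h0, dotProduct_zero]))
    exact mem_biUnion.2 ⟨k, mem_filter.2 ⟨mem_filter.2 ⟨mem_box.2 hn, hk⟩, hn.trans_lt hS⟩,
      mem_filter.2 ⟨m, d, perp_of_dot hj e (dot_self_cross _ _),
        perp_of_dot hj e (dot_cross_self _ _)⟩⟩
  have h2 := (card_le_card h1).trans card_biUnion_le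
  have h3 := shells T (fun _ => 1) (fun _ => zero_le_one) (fun k hk => (mem_filter.1 hk).2.ne_zero)
    27 b hb (fun K hK => by
      rw [sum_const, nsmul_eq_mul, mul_one]
      refine le_trans ?_ (card_box hK)
      exact_mod_cast card_le_card fun k hk => mem_box.2 (mem_filter.1 hk).2) S
  calc _ ≤ ∑ k ∈ T with nrm k < b ^ S,
        (#{Z ∈ mats R | Z.det = t ∧ Z 0 ⬝ᵥ k = 0 ∧ Z 1 ⬝ᵥ k = 0} : ℝ) := by exact_mod_cast h2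
    _ ≤ ∑ k ∈ T with nrm k < b ^ S, (18 * R ^ 2 : ℝ) ^ 3 * (1 / (nrm k : ℝ) ^ 3) :=
        sum_le_sum fun k hk => count_det_k R ht (mem_filter.1 (mem_filter.1 hk).1).2
    _ ≤ _ := by rw [← mul_sum]; gcongr

lemma red_sub (l : ℕ) (y z : Fin 3 → ℤ) : red l (y - z) = red l y - red l z := by
  funext i; simp [red]

lemma dvd_of_cross {l j : ℕ} [Fact l.Prime] {Z₀ : Matrix (Fin 3) (Fin 3) (ZMod l)}
    (h : j = 1 ∨ j = Fintype.card (ZMod l) ∧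
      ∀ γ γ' : Fin 3 → ZMod l, (γ ᵥ* Z₀) ⨯₃ (γ' ᵥ* Z₀) = 0) (α y z : Fin 3 → ℤ)
    (hy : ∃ γ, γ ᵥ* Z₀ = red l y) (hz : ∃ γ, γ ᵥ* Z₀ = red l z) : (j : ℤ) ∣ α ⬝ᵥ y ⨯₃ z := by
  rcases h with rfl | ⟨rfl, h⟩
  · simp
  obtain ⟨γ, hγ⟩ := hy
  obtain ⟨γ', hγ'⟩ := hz
  have h1 := h γ γ'
  rw [hγ, hγ'] at h1
  rw [ZMod.card, ← ZMod.intCast_zmod_eq_zero_iff_dvd]
  have h2 : ((α ⬝ᵥ y ⨯₃ z : ℤ) : ZMod l) = red l α ⬝ᵥ red l y ⨯₃ red l z := by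
    simp [dotProduct, Fin.sum_univ_three, cross_apply, red]
  rw [h2, h1, dotProduct_zero]

theorem count_rel (R M r : ℕ) [Fact M.Prime] [Fact r.Prime] (hMr : M ≠ r) {k : Fin 3 → ℤ}
    (hk : Prim k) (Z₀ : Matrix (Fin 3) (Fin 3) (ZMod M)) (T₀ : Matrix (Fin 3) (Fin 3) (ZMod r))
    (hZ₀ : ∃ a, Z₀ a 0 ≠ 0) (hT₀ : ∃ a, T₀ a 0 ≠ 0) :
    ((∑ Z ∈ mats R with Z *ᵥ k = 0 ∧ Z 0 ⨯₃ Z 1 ≠ 0 ∨ Z *ᵥ k = 0 ∧ Z 0 ⨯₃ Z 2 ≠ 0 ∨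
        Z *ᵥ k = 0 ∧ Z 1 ⨯₃ Z 2 ≠ 0,
      (∏ i, rowc Z₀ (red M (Z i))) * ∏ i, rowc T₀ (red r (Z i)) : ℕ) : ℝ) ≤
      (18 * R ^ 2 * (M * r)) ^ 3 * (1 / (nrm k : ℝ) ^ 3) := by
  classical
  obtain ⟨a, ha⟩ := hZ₀
  obtain ⟨a', ha'⟩ := hT₀
  obtain ⟨j, hj1, hj2⟩ := rank_dichotomy ha
  obtain ⟨j', hj1', hj2'⟩ := rank_dichotomy ha'
  obtain ⟨α, hα⟩ := hk
  set P : (Fin 3 → ℤ) → Prop := fun y => y ⬝ᵥ k = 0 ∧ (∃ γ, γ ᵥ* Z₀ = red M y) ∧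
    ∃ γ, γ ᵥ* T₀ = red r y with hP
  have hrow : ∀ y, y ⬝ᵥ k = 0 → rowc Z₀ (red M y) * rowc T₀ (red r y) ≠ 0 → P y :=
    fun y hy h => by
      obtain ⟨γ, hγ⟩ := card_ne_zero.1 (left_ne_zero_of_mul h)
      obtain ⟨γ', hγ'⟩ := card_ne_zero.1 (right_ne_zero_of_mul h)
      exact ⟨hy, ⟨γ, (mem_filter.1 hγ).2⟩, γ', (mem_filter.1 hγ').2⟩
  set A := {Z ∈ mats R | Z *ᵥ k = 0 ∧ Z 0 ⨯₃ Z 1 ≠ 0 ∨ Z *ᵥ k = 0 ∧ Z 0 ⨯₃ Z 2 ≠ 0 ∨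
        Z *ᵥ k = 0 ∧ Z 1 ⨯₃ Z 2 ≠ 0} with hA
  have hAk : ∀ Z ∈ A, ∀ i, Z i ⬝ᵥ k = 0 := fun Z hZ i => by
    rcases (mem_filter.1 hZ).2 with h | h | h <;> exact congrFun h.1 i
  simp only [← prod_mul_distrib]
  rw [← sum_filter_ne_zero]
  rcases eq_empty_or_nonempty {Z ∈ A | ∏ i, rowc Z₀ (red M (Z i)) * rowc T₀ (red r (Z i)) ≠ 0}
    with h0 | ⟨Z₁, hZ₁⟩
  · rw [h0]; simp only [sum_empty, Nat.cast_zero]; positivity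
  have hAP : ∀ Z ∈ {Z ∈ A | ∏ i, rowc Z₀ (red M (Z i)) * rowc T₀ (red r (Z i)) ≠ 0}, ∀ i,
      P (Z i) := fun Z hZ i => hrow _ (hAk Z (mem_filter.1 hZ).1 i)
    (prod_ne_zero_iff.1 (mem_filter.1 hZ).2 i (mem_univ _))
  have hcop : IsCoprime (j : ℤ) j' := by
    rw [Nat.isCoprime_iff_coprime]
    rcases hj2 with rfl | ⟨rfl, -⟩
    · simp
    rcases hj2' with rfl | ⟨rfl, -⟩
    · simp
    rw [ZMod.card, ZMod.card]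
    exact (Nat.coprime_primes Fact.out Fact.out).2 hMr
  have hY : #((box R).filter P) * (j * j' * nrm k) ≤ 18 * R ^ 2 := by
    have m₁ := (mem_filter.1 (mem_filter.1 hZ₁).1).1
    have H := fun c d => lattice_count P (fun y z hy hz => ?_) k (j * j') (fun y z hy hz => ?_)
      R (Z₁ c) (Z₁ d) (hAP Z₁ hZ₁ c) (hAP Z₁ hZ₁ d) (nrm_row m₁ c) (nrm_row m₁ d)
    · rcases (mem_filter.1 (mem_filter.1 hZ₁).1).2 with h | h | h <;> exact H _ _ h.2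
    · obtain ⟨a1, ⟨γ, a2⟩, γ', a3⟩ := hy
      obtain ⟨b1, ⟨δ, b2⟩, δ', b3⟩ := hz
      exact ⟨by rw [sub_dotProduct, a1, b1, sub_zero], ⟨γ - δ, by rw [sub_vecMul, a2, b2, red_sub]⟩,
        γ' - δ', by rw [sub_vecMul, a3, b3, red_sub]⟩
    · obtain ⟨u, hu⟩ := hcop.mul_dvd (dvd_of_cross hj2 α y z hy.2.1 hz.2.1)
        (dvd_of_cross hj2' α y z hy.2.2 hz.2.2)
      exact ⟨u, by rw [cross_of_perp hα hy.1 hz.1, hu]; push_cast; rfl⟩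
  set Y := (box R).filter P with hYdef
  have h1 : ∑ Z ∈ A with ∏ i, rowc Z₀ (red M (Z i)) * rowc T₀ (red r (Z i)) ≠ 0,
      ∏ i, rowc Z₀ (red M (Z i)) * rowc T₀ (red r (Z i)) ≤ (#Y * (M * j * (r * j'))) ^ 3 := by
    refine (sum_le_card_nsmul _ _ ((M * j * (r * j')) ^ 3) fun Z _ => ?_).trans ?_
    · refine (prod_le_pow_card _ _ (M * j * (r * j')) fun i _ => ?_).trans (by simp)
      have a1 := hj1 (red M (Z i))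
      have a2 := hj1' (red r (Z i))
      rw [ZMod.card] at a1 a2
      exact Nat.mul_le_mul a1 a2
    · rw [smul_eq_mul, mul_pow #Y]
      refine Nat.mul_le_mul_right _ ?_
      have e : #Y ^ 3 = #(Fintype.piFinset fun _ : Fin 3 => Y) := by simp
      rw [e]
      refine card_le_card fun Z hZ => Fintype.mem_piFinset.2 fun i => mem_filter.2
        ⟨mem_box.2 (nrm_row (mem_filter.1 (mem_filter.1 hZ).1).1 i), hAP Z hZ i⟩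
  have hk0 : (0 : ℝ) < nrm k := by exact_mod_cast nrm_pos (Prim.ne_zero ⟨α, hα⟩)
  have h2 : ((#Y * (M * j * (r * j')) : ℕ) : ℝ) ≤ 18 * R ^ 2 * (M * r) / nrm k := by
    rw [le_div_iff₀ hk0]
    have := Nat.mul_le_mul_right (M * r) hY
    have e : #Y * (M * j * (r * j')) * nrm k = #Y * (j * j' * nrm k) * (M * r) := by ring
    rw [← e] at this
    exact_mod_cast this
  calc _ ≤ ((#Y * (M * j * (r * j')) : ℕ) : ℝ) ^ 3 := by exact_mod_cast h1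
    _ ≤ (18 * R ^ 2 * (M * r) / nrm k) ^ 3 := by gcongr
    _ = _ := by ring

end Crest.Agent.R32
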