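import Mathlib

/-! Row 32: the deletion method. -/

set_option autoImplicit false

namespace Crest.Agent.R32

open Finset

lemma resample {Ω κ I : Type*} [Fintype Ω] [Fintype κ] [Fintype I] [DecidableEq Ω]
    [DecidableEq κ] [DecidableEq I] {ι : κ → I} (hι : Function.Injective ι) (B : Finset (κ → Ω)) :
    Fintype.card Ω ^ Fintype.card κ * #{ω : I → Ω | ω ∘ ι ∈ B} ≤
      Fintype.card Ω ^ Fintype.card I * #B := by
  rw [← Fintype.card_fun, ← Fintype.card_fun, ← card_univ, ← card_univ, ← card_product,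
    ← card_product]
  refine card_le_card_of_injOn (fun p => (Function.extend ι p.1 p.2, p.2 ∘ ι)) (fun p hp => ?_)
    (fun p _ p' _ e => ?_)
  · exact mem_coe.2 (mem_product.2 ⟨mem_univ _,
      (mem_filter.1 (mem_product.1 (mem_coe.1 hp)).2).2⟩)
  · obtain ⟨e1, e2⟩ := Prod.mk.inj e
    refine Prod.ext (funext fun a => ?_) (funext fun i => ?_)
    · have := congrFun e1 (ι a)
      rwa [hι.extend_apply, hι.extend_apply] at this
    · by_cases hi : ∃ a, ι a = i
      · obtain ⟨a, rfl⟩ := hi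
        exact congrFun e2 a
      · have := congrFun e1 i
        rwa [Function.extend_apply' _ _ _ hi, Function.extend_apply' _ _ _ hi] at this

lemma resample_sum {Ω : Type*} [Fintype Ω] [DecidableEq Ω] (d m : ℕ) (B : Finset (Fin d → Ω)) :
    Fintype.card Ω ^ d * ∑ ω : Fin m → Ω,
      #{ι : Fin d → Fin m | Function.Injective ι ∧ ω ∘ ι ∈ B} ≤
      m ^ d * (Fintype.card Ω ^ m * #B) := by
  simp only [card_filter]
  rw [sum_comm, mul_sum]
  refine (sum_le_card_nsmul _ _ (Fintype.card Ω ^ m * #B) fun ι _ => ?_).trans (by simp)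
  by_cases hι : Function.Injective ι
  · have := resample hι B
    simpa only [Fintype.card_fin, card_filter, hι, true_and] using this
  · simp [hι]

theorem deletion {Ω : Type*} [Fintype Ω] [DecidableEq Ω] [Nonempty Ω] (n : ℕ)
    (B₃ : Finset (Fin 3 → Ω)) (B₂ : Finset (Fin 2 → Ω))
    (h3 : 16 * n ^ 2 * #B₃ ≤ Fintype.card Ω ^ 3) (h2 : 8 * n * #B₂ ≤ Fintype.card Ω ^ 2) :
    ∃ f : Fin n → Ω, (∀ ι : Fin 3 → Fin n, Function.Injective ι → f ∘ ι ∉ B₃) ∧
      ∀ ι : Fin 2 → Fin n, Function.Injective ι → f ∘ ι ∉ B₂ := by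
  have hΩ : 0 < Fintype.card Ω := Fintype.card_pos
  have a3 : 2 * ∑ ω : Fin (2 * n) → Ω,
      #{ι : Fin 3 → Fin (2 * n) | Function.Injective ι ∧ ω ∘ ι ∈ B₃} ≤
      n * Fintype.card Ω ^ (2 * n) := by
    refine Nat.le_of_mul_le_mul_left (c := Fintype.card Ω ^ 3) ?_ (by positivity)
    calc _ = 2 * (Fintype.card Ω ^ 3 * _) := by ring
      _ ≤ 2 * ((2 * n) ^ 3 * (Fintype.card Ω ^ (2 * n) * #B₃)) :=
          Nat.mul_le_mul_left _ (resample_sum 3 (2 * n) B₃)
      _ = 16 * n ^ 2 * #B₃ * (n * Fintype.card Ω ^ (2 * n)) := by ring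
      _ ≤ _ := Nat.mul_le_mul_right _ h3
  have a2 : 2 * ∑ ω : Fin (2 * n) → Ω,
      #{ι : Fin 2 → Fin (2 * n) | Function.Injective ι ∧ ω ∘ ι ∈ B₂} ≤
      n * Fintype.card Ω ^ (2 * n) := by
    refine Nat.le_of_mul_le_mul_left (c := Fintype.card Ω ^ 2) ?_ (by positivity)
    calc _ = 2 * (Fintype.card Ω ^ 2 * _) := by ring
      _ ≤ 2 * ((2 * n) ^ 2 * (Fintype.card Ω ^ (2 * n) * #B₂)) :=
          Nat.mul_le_mul_left _ (resample_sum 2 (2 * n) B₂)
      _ = 8 * n * #B₂ * (n * Fintype.card Ω ^ (2 * n)) := by ring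
      _ ≤ _ := Nat.mul_le_mul_right _ h2
  obtain ⟨ω, -, hω⟩ := exists_le_of_sum_le (s := (univ : Finset (Fin (2 * n) → Ω)))
    (f := fun ω => #{ι : Fin 3 → Fin (2 * n) | Function.Injective ι ∧ ω ∘ ι ∈ B₃} +
      #{ι : Fin 2 → Fin (2 * n) | Function.Injective ι ∧ ω ∘ ι ∈ B₂}) (g := fun _ => n)
    univ_nonempty (by
      rw [sum_add_distrib, sum_const, card_univ, Fintype.card_fun, Fintype.card_fin, smul_eq_mul,
        mul_comm (Fintype.card Ω ^ (2 * n)) n]
      omega)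
  set D := ({ι : Fin 3 → Fin (2 * n) | Function.Injective ι ∧ ω ∘ ι ∈ B₃} : Finset _).image
    (fun ι => ι 0) ∪ ({ι : Fin 2 → Fin (2 * n) | Function.Injective ι ∧ ω ∘ ι ∈ B₂} :
      Finset _).image (fun ι => ι 0) with hD
  have hDn : #D ≤ n := (card_union_le _ _).trans ((add_le_add card_image_le card_image_le).trans hω)
  obtain ⟨t, ht, htn⟩ := exists_subset_card_eq (s := Dᶜ) (n := n) (by
    rw [card_compl, Fintype.card_fin]; omega)
  have he : ∀ i, t.orderEmbOfFin htn i ∉ D := fun i =>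
    mem_compl.1 (ht (orderEmbOfFin_mem t htn i))
  refine ⟨ω ∘ t.orderEmbOfFin htn, fun ι hι h => he (ι 0) ?_, fun ι hι h => he (ι 0) ?_⟩
  · exact mem_union_left _ (mem_image.2 ⟨t.orderEmbOfFin htn ∘ ι, mem_filter.2
      ⟨mem_univ _, (t.orderEmbOfFin htn).injective.comp hι, h⟩, rfl⟩)
  · exact mem_union_right _ (mem_image.2 ⟨t.orderEmbOfFin htn ∘ ι, mem_filter.2
      ⟨mem_univ _, (t.orderEmbOfFin htn).injective.comp hι, h⟩, rfl⟩)

end Crest.Agent.R32
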