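import Crest.Agent.R32.Form

/-! Row 32: lifting the form to integers through digit expansions. -/

set_option autoImplicit false

namespace Crest.Agent.R32

open Finset

lemma d3_sum {R ι : Type*} [CommRing R] [Fintype ι] (α β γ : ι → R) (f g h : ι → Fin 3 → R) :
    d3 (fun j => ∑ i, f i j * α i) (fun j => ∑ i, g i j * β i) (fun j => ∑ i, h i j * γ i) =
      ∑ i, ∑ j, ∑ l, d3 (f i) (g j) (h l) * (α i * β j * γ l) := by
  have h1 : ∀ (b c : Fin 3 → R), d3 (fun j => ∑ i, f i j * α i) b c =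
      ∑ i, d3 (f i) b c * α i := fun b c => by
    simp only [d3, sum_mul, ← sum_sub_distrib, ← sum_add_distrib]
    exact sum_congr rfl fun i _ => by ring
  have h2 : ∀ (a c : Fin 3 → R), d3 a (fun j => ∑ i, g i j * β i) c =
      ∑ i, d3 a (g i) c * β i := fun a c => by
    simp only [d3, sum_mul, mul_sum, ← sum_sub_distrib, ← sum_add_distrib]
    exact sum_congr rfl fun i _ => by ring
  have h3 : ∀ (a b : Fin 3 → R), d3 a b (fun j => ∑ i, h i j * γ i) =
      ∑ i, d3 a b (h i) * γ i := fun a b => by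
    simp only [d3, mul_sum, ← sum_sub_distrib, ← sum_add_distrib]
    exact sum_congr rfl fun i _ => by ring
  rw [h1]
  refine sum_congr rfl fun i _ => ?_
  rw [h2, sum_mul]
  refine sum_congr rfl fun j _ => ?_
  rw [h3, sum_mul, sum_mul]
  exact sum_congr rfl fun l _ => by ring

lemma abs_d3_le {a b c : Fin 3 → ℝ} {A B C : ℝ} (ha : ∀ j, |a j| ≤ A) (hb : ∀ j, |b j| ≤ B)
    (hc : ∀ j, |c j| ≤ C) : |d3 a b c| ≤ 6 * (A * B * C) := by
  have hA : 0 ≤ A := (abs_nonneg _).trans (ha 0)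
  have hB : 0 ≤ B := (abs_nonneg _).trans (hb 0)
  have h : ∀ i j l, |a i * b j * c l| ≤ A * B * C := fun i j l => by
    rw [abs_mul, abs_mul]
    exact mul_le_mul (mul_le_mul (ha i) (hb j) (abs_nonneg _) hA) (hc l) (abs_nonneg _)
      (mul_nonneg hA hB)
  have e : d3 a b c = a 0 * b 1 * c 2 - a 0 * b 2 * c 1 - a 1 * b 0 * c 2 + a 1 * b 2 * c 0 +
      a 2 * b 0 * c 1 - a 2 * b 1 * c 0 := by unfold d3; ring
  have h1 := abs_le.1 (h 0 1 2)
  have h2 := abs_le.1 (h 0 2 1)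
  have h3 := abs_le.1 (h 1 0 2)
  have h4 := abs_le.1 (h 1 2 0)
  have h5 := abs_le.1 (h 2 0 1)
  have h6 := abs_le.1 (h 2 1 0)
  rw [e, abs_le]
  constructor <;> linarith [h1.1, h1.2, h2.1, h2.2, h3.1, h3.2, h4.1, h4.2, h5.1, h5.2, h6.1, h6.2]

lemma d3_cast {R S : Type*} [CommRing R] [CommRing S] (φ : R →+* S) (a b c : Fin 3 → R) :
    φ (d3 a b c) = d3 (fun j => φ (a j)) (fun j => φ (b j)) (fun j => φ (c j)) := by
  simp [d3]

/-- digit positions -/
def pos (i : ℕ) : ℕ := 2 ^ i - 1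

lemma pos_eq {i j l : ℕ} (h : pos i + pos j = 2 * pos l) : i = l ∧ j = l := by
  have hp : ∀ n : ℕ, 0 < 2 ^ n := fun n => Nat.pos_of_ne_zero (by positivity)
  have h1 : 2 ^ i + 2 ^ j = 2 * 2 ^ l := by
    unfold pos at h
    have := hp i; have := hp j; have := hp l
    omega
  have key : ∀ i j : ℕ, i ≤ j → 2 ^ i + 2 ^ j = 2 * 2 ^ l → i = l ∧ j = l := by
    intro i j hij h
    have a1 : 2 ^ i ≤ 2 ^ j := Nat.pow_le_pow_right (by norm_num) hij
    have a2 : 2 ^ j < 2 ^ (l + 1) := by rw [pow_succ]; have := hp i; omega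
    have a3 : 2 ^ l ≤ 2 ^ j := by omega
    have a4 : j < l + 1 := (Nat.pow_lt_pow_iff_right (by norm_num)).1 a2
    have a5 : l ≤ j := (Nat.pow_le_pow_iff_right (by norm_num)).1 a3
    have a6 : j = l := by omega
    subst a6
    exact ⟨Nat.pow_right_injective (le_refl 2) (by simp only; omega), rfl⟩
  rcases le_total i j with hij | hij
  · exact key i j hij h1
  · exact (key j i hij (by omega)).symm

lemma term_approx (d : ℤ) (H G' : ℕ) (hH : 0 < H) (hG : 0 < G') (u v : ℕ) (D : ℝ)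
    (hd : |(d : ℝ)| ≤ D) :
    ∃ z : ℤ, |(d : ℝ) * (((H * G' : ℕ) : ℝ) ^ u / (H * ((H * G' : ℕ) : ℝ) ^ v)) - z -
      (if u = v then (d : ℝ) / H else 0)| ≤ D / ((H * G' : ℕ) * H) := by
  have hH' : (0 : ℝ) < H := by exact_mod_cast hH
  have hG1 : (1 : ℝ) ≤ ((H * G' : ℕ) : ℝ) := by exact_mod_cast Nat.mul_pos hH hG
  have hD : 0 ≤ D := (abs_nonneg _).trans hd
  have hpos : 0 ≤ D / ((H * G' : ℕ) * H) := by positivity
  rcases lt_trichotomy u v with h | h | h
  · refine ⟨0, ?_⟩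
    obtain ⟨w, rfl⟩ := Nat.exists_eq_add_of_lt h
    rw [if_neg h.ne]
    have e : (d : ℝ) * (((H * G' : ℕ) : ℝ) ^ u / (H * ((H * G' : ℕ) : ℝ) ^ (u + w + 1))) - (0 : ℤ) - 0
        = d / (((H * G' : ℕ) : ℝ) ^ w * ((H * G' : ℕ) * H)) := by
      simp only [Int.cast_zero, sub_zero]
      field_simp
      ring
    rw [e, abs_div, abs_of_pos (a := _ * _) (by positivity)]
    refine div_le_div₀ hD hd (by positivity) ?_
    exact le_mul_of_one_le_left (by positivity) (one_le_pow₀ hG1)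
  · subst h
    refine ⟨0, ?_⟩
    rw [if_pos rfl]
    have e : (d : ℝ) * (((H * G' : ℕ) : ℝ) ^ u / (H * ((H * G' : ℕ) : ℝ) ^ u)) - (0 : ℤ) - d / H
        = 0 := by
      simp only [Int.cast_zero, sub_zero]
      field_simp
      ring
    rw [e, abs_zero]
    exact hpos
  · obtain ⟨w, rfl⟩ := Nat.exists_eq_add_of_lt h
    refine ⟨d * (H * G' : ℕ) ^ w * G', ?_⟩
    rw [if_neg h.ne']
    have e : (d : ℝ) * (((H * G' : ℕ) : ℝ) ^ (v + w + 1) / (H * ((H * G' : ℕ) : ℝ) ^ v)) -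
        ((d * (H * G' : ℕ) ^ w * G' : ℤ) : ℝ) - 0 = 0 := by
      push_cast
      field_simp
      ring
    rw [e, abs_zero]
    exact hpos

theorem digit_core {s : ℕ} (f g h : Fin s → Fin 3 → ℤ) (q H G' M Φ B : ℕ) (φ : Fin 3 → ℤ)
    (hf : ∀ i j, |f i j| ≤ q) (hg : ∀ i j, |g i j| ≤ q) (hh : ∀ i j, 0 ≤ h i j ∧ h i j ≤ q)
    (hH : 0 < H) (hG' : 0 < G') (hG : 24 * s ^ 3 * q ^ 3 ≤ H * G')
    (hE0 : ∑ i, d3 (f i) (g i) (h i) ≠ 0) (hE : 4 * |∑ i, d3 (f i) (g i) (h i)| ≤ H)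
    (ha : ∀ j, |∑ i, f i j * ((H * G' : ℕ) : ℤ) ^ pos i| ≤ B)
    (hb : ∀ j, |∑ i, g i j * ((H * G' : ℕ) : ℤ) ^ pos i| ≤ B)
    (hφ : ∀ j, 0 ≤ φ j ∧ φ j ≤ Φ) (hΦ : s * q ≤ Φ) (hM : 24 * B ^ 2 * H * Φ ≤ M)
    (t : ℤ) (ht : 2 * H * |t| < M) :
    ¬ (M : ℤ) ∣ d3 (fun j => ∑ i, f i j * ((H * G' : ℕ) : ℤ) ^ pos i)
      (fun j => ∑ i, g i j * ((H * G' : ℕ) : ℤ) ^ pos i)
      (fun j => ∑ i, h i j * ((M / (H * (H * G') ^ (2 * pos i)) : ℕ) : ℤ) + φ j) - t := by
  rintro ⟨y, hy⟩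
  set G : ℕ := H * G' with hGdef
  have hH' : (0 : ℝ) < H := by exact_mod_cast hH
  have hG0 : (0 : ℝ) < G := by exact_mod_cast Nat.mul_pos hH hG'
  have hM0 : (0 : ℝ) < M := by
    have : (0 : ℤ) < M := lt_of_le_of_lt (by positivity) ht
    exact_mod_cast this
  set a : Fin 3 → ℝ := fun j => ∑ i, (f i j : ℝ) * (G : ℝ) ^ pos i with ha'
  set b : Fin 3 → ℝ := fun j => ∑ i, (g i j : ℝ) * (G : ℝ) ^ pos i with hb'
  set c : Fin 3 → ℝ := fun j => ∑ i, (h i j : ℝ) * (M / (H * (G : ℝ) ^ (2 * pos i))) with hc'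
  set δ : Fin 3 → ℝ := fun j =>
    ∑ i, (h i j : ℝ) * ((M / (H * G ^ (2 * pos i)) : ℕ) : ℝ) + φ j - c j with hδ'
  have hy' : d3 a b c + d3 a b δ - t = M * y := by
    have := congrArg (Int.castRingHom ℝ) hy
    rw [map_sub, d3_cast] at this
    simp only [eq_intCast, map_mul, Int.cast_natCast, Int.cast_sum, Int.cast_mul, Int.cast_pow,
      Int.cast_add] at this
    rw [← this]
    simp only [d3, hδ', ha', hb']
    ring
  have hδ : ∀ j, |δ j| ≤ Φ := fun j => by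
    have e : δ j = φ j - ∑ i, (h i j : ℝ) * (M / (H * (G : ℝ) ^ (2 * pos i)) -
        ((M / (H * G ^ (2 * pos i)) : ℕ) : ℝ)) := by
      simp only [hδ', hc', mul_sub, sum_sub_distrib]; ring
    have hfl : ∀ i : Fin s, 0 ≤ M / (H * (G : ℝ) ^ (2 * pos i)) -
        ((M / (H * G ^ (2 * pos i)) : ℕ) : ℝ) ∧ M / (H * (G : ℝ) ^ (2 * pos i)) -
        ((M / (H * G ^ (2 * pos i)) : ℕ) : ℝ) ≤ 1 := fun i => by
      have e1 : (M : ℝ) / (H * (G : ℝ) ^ (2 * pos i)) = M / ((H * G ^ (2 * pos i) : ℕ) : ℝ) := by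
        push_cast; ring
      rw [e1, ← Nat.floor_div_eq_div (K := ℝ)]
      have := Nat.floor_le (a := (M : ℝ) / ((H * G ^ (2 * pos i) : ℕ) : ℝ)) (by positivity)
      have := Nat.lt_floor_add_one ((M : ℝ) / ((H * G ^ (2 * pos i) : ℕ) : ℝ))
      constructor <;> linarith
    have h0 : 0 ≤ ∑ i, (h i j : ℝ) * (M / (H * (G : ℝ) ^ (2 * pos i)) -
        ((M / (H * G ^ (2 * pos i)) : ℕ) : ℝ)) :=
      sum_nonneg fun i _ => mul_nonneg (by exact_mod_cast (hh i j).1) (hfl i).1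
    have h1 : ∑ i, (h i j : ℝ) * (M / (H * (G : ℝ) ^ (2 * pos i)) -
        ((M / (H * G ^ (2 * pos i)) : ℕ) : ℝ)) ≤ s * q := by
      refine (sum_le_card_nsmul _ _ (q : ℝ) fun i _ => ?_).trans (by simp)
      have a1 : (h i j : ℝ) ≤ q := by exact_mod_cast (hh i j).2
      have a2 : (0 : ℝ) ≤ h i j := by exact_mod_cast (hh i j).1
      nlinarith [(hfl i).1, (hfl i).2]
    have h2 : (s : ℝ) * q ≤ Φ := by exact_mod_cast hΦ
    have h3 : (0 : ℝ) ≤ φ j := by exact_mod_cast (hφ j).1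
    have h4 : (φ j : ℝ) ≤ Φ := by exact_mod_cast (hφ j).2
    rw [e, abs_le]
    constructor <;> linarith
  have haB : ∀ j, |a j| ≤ B := fun j => by have := ha j; simp only [ha']; exact_mod_cast this
  have hbB : ∀ j, |b j| ≤ B := fun j => by have := hb j; simp only [hb']; exact_mod_cast this
  have herr : |d3 a b δ| ≤ M / (4 * H) := by
    refine (abs_d3_le haB hbB hδ).trans ?_
    rw [le_div_iff₀ (by positivity)]
    have : (24 * B ^ 2 * H * Φ : ℝ) ≤ M := by exact_mod_cast hM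
    nlinarith
  have hd : ∀ i j l, |((d3 (f i) (g j) (h l) : ℤ) : ℝ)| ≤ 6 * (q * q * q) := fun i j l => by
    have := d3_cast (Int.castRingHom ℝ) (f i) (g j) (h l)
    simp only [eq_intCast] at this
    rw [this]
    refine abs_d3_le (fun x => by exact_mod_cast hf i x) (fun x => by exact_mod_cast hg j x)
      (fun x => ?_)
    rw [abs_of_nonneg (by exact_mod_cast (hh l x).1)]
    exact_mod_cast (hh l x).2
  choose z hz using fun i j l : Fin s => term_approx (d3 (f i) (g j) (h l)) H G' hH hG'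
    (pos i + pos j) (2 * pos l) _ (hd i j l)
  set E : ℤ := ∑ i, d3 (f i) (g i) (h i) with hEdef
  have hmain : d3 a b c = M * ∑ i, ∑ j, ∑ l, ((d3 (f i) (g j) (h l) : ℤ) : ℝ) *
      ((G : ℝ) ^ (pos i + pos j) / (H * (G : ℝ) ^ (2 * pos l))) := by
    simp only [ha', hb', hc']
    rw [d3_sum]
    simp only [mul_sum]
    refine sum_congr rfl fun i _ => sum_congr rfl fun j _ => sum_congr rfl fun l _ => ?_
    have := d3_cast (Int.castRingHom ℝ) (f i) (g j) (h l)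
    simp only [eq_intCast] at this
    rw [this]
    ring
  have hdiag : ∑ i : Fin s, ∑ j : Fin s, ∑ l : Fin s, (if pos i + pos j = 2 * pos l then
      ((d3 (f i) (g j) (h l) : ℤ) : ℝ) / H else 0) = E / H := by
    rw [hEdef, Int.cast_sum, sum_div]
    refine sum_congr rfl fun i _ => ?_
    rw [sum_eq_single i, sum_eq_single i, if_pos (by ring)]
    · intro l _ hl
      rw [if_neg fun h => hl (Fin.ext (pos_eq h).1.symm)]
    · simp
    · intro j _ hj
      refine sum_eq_zero fun l _ => if_neg fun h => hj (Fin.ext ?_)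
      rw [(pos_eq h).1, (pos_eq h).2]
    · simp
  have happ : |∑ i, ∑ j, ∑ l, ((d3 (f i) (g j) (h l) : ℤ) : ℝ) *
      ((G : ℝ) ^ (pos i + pos j) / (H * (G : ℝ) ^ (2 * pos l))) -
      ((∑ i, ∑ j, ∑ l, z i j l : ℤ) : ℝ) - E / H| ≤ 1 / (4 * H) := by
    rw [← hdiag]
    push_cast
    simp only [← sum_sub_distrib]
    have hb : ∀ (F : Fin s → ℝ) (c : ℝ), (∀ i, |F i| ≤ c) → |∑ i, F i| ≤ s * c := fun F c hF =>
      (abs_sum_le_sum_abs _ _).trans ((sum_le_card_nsmul _ _ c fun i _ => hF i).trans (by simp))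
    refine (hb _ _ fun i => hb _ _ fun j => hb _ _ fun l => hz i j l).trans ?_
    have : (24 * s ^ 3 * q ^ 3 : ℝ) ≤ G := by exact_mod_cast hG
    rw [← mul_div_assoc, ← mul_div_assoc, ← mul_div_assoc, div_le_div_iff₀ (by positivity)
      (by positivity)]
    nlinarith
  set S : ℝ := ∑ i, ∑ j, ∑ l, ((d3 (f i) (g j) (h l) : ℤ) : ℝ) *
      ((G : ℝ) ^ (pos i + pos j) / (H * (G : ℝ) ^ (2 * pos l))) with hS
  set z0 : ℤ := ∑ i, ∑ j, ∑ l, z i j l with hz0
  have ht' : |(t : ℝ)| < M / (2 * H) := by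
    rw [lt_div_iff₀ (by positivity)]
    have : (2 * H * |(t : ℝ)|) < M := by exact_mod_cast ht
    linarith
  have hfin : |((y - z0) * H - E : ℝ)| < 1 := by
    have e : ((y - z0) * H - E : ℝ) = H * (S - z0 - E / H) + H / M * (d3 a b δ - t) := by
      have : (y : ℝ) = (d3 a b c + d3 a b δ - t) / M := by rw [hy']; field_simp
      rw [this, hmain]
      field_simp
      ring
    have b1 : |H * (S - z0 - E / H)| ≤ 1 / 4 := by
      rw [abs_mul, abs_of_pos hH']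
      refine (mul_le_mul_of_nonneg_left happ hH'.le).trans (le_of_eq ?_)
      field_simp
    have b2 : |H / M * (d3 a b δ - t)| < 3 / 4 := by
      rw [abs_mul, abs_of_pos (by positivity)]
      have : |d3 a b δ - t| < M / (4 * H) + M / (2 * H) :=
        (abs_sub _ _).trans_lt (by linarith)
      refine (mul_lt_mul_of_pos_left this (by positivity)).trans_le (le_of_eq ?_)
      field_simp
      ring
    rw [e]
    exact (abs_add_le _ _).trans_lt (by linarith)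
  have hfin' : |(y - z0) * H - E| < 1 := by exact_mod_cast hfin
  have h0 : (y - z0) * H = E := by
    have := Int.abs_lt_one_iff.1 hfin'
    linarith
  have h1 : y - z0 ≠ 0 := fun h => hE0 (by rw [← h0, h, zero_mul])
  have h2 : |E| = |y - z0| * H := by rw [← h0, abs_mul, Nat.abs_cast]
  have h3 : 1 ≤ |y - z0| := Int.one_le_abs h1
  have h4 : (0 : ℤ) < H := by exact_mod_cast hH
  nlinarith

end Crest.Agent.R32
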