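import Mathlib

/-! Row 32: an alternating trilinear-type form of bounded rank on `𝔽_p⁴`. -/

set_option autoImplicit false

namespace Crest.Agent.R32

open Finset

/-- the `3 × 3` determinant with rows `a b c` -/
def d3 {R : Type*} [CommRing R] (a b c : Fin 3 → R) : R :=
  a 0 * (b 1 * c 2 - b 2 * c 1) - a 1 * (b 0 * c 2 - b 2 * c 0) + a 2 * (b 0 * c 1 - b 1 * c 0)

lemma det_eq_d3 {R : Type*} [CommRing R] (Z : Matrix (Fin 3) (Fin 3) R) :
    Z.det = d3 (Z 0) (Z 1) (Z 2) := by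
  rw [Matrix.det_fin_three, d3]; ring

def n1 {R : Type*} [CommRing R] (ρ a b : R) : R := a ^ 3 - a * b ^ 2 - ρ * b ^ 3

def n4 {R : Type*} [CommRing R] (ρ : R) (x y : Fin 4 → R) : R :=
  n1 ρ (n1 ρ (x 0 - y 0) (x 1 - y 1)) (n1 ρ (x 2 - y 2) (x 3 - y 3))

def F3 {R : Type*} [CommRing R] (ρ : R) (x y z : Fin 4 → R) : R :=
  n4 ρ x y * n4 ρ y z * n4 ρ z x

lemma n4_swap {R : Type*} [CommRing R] (ρ : R) (x y : Fin 4 → R) : n4 ρ y x = - n4 ρ x y := by
  have h : ∀ a b : R, n1 ρ (-a) (-b) = - n1 ρ a b := fun a b => by unfold n1; ring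
  unfold n4
  rw [← h, ← h, ← h]
  simp

lemma n1_eq_zero {K : Type*} [Field K] {ρ : K} (hρ : ∀ a : K, a ^ 3 - a ≠ ρ) {a b : K}
    (h : n1 ρ a b = 0) : a = 0 ∧ b = 0 := by
  unfold n1 at h
  by_cases hb : b = 0
  · subst hb
    refine ⟨?_, rfl⟩
    have : a ^ 3 = 0 := by simpa using h
    exact pow_eq_zero_iff (by norm_num) |>.1 this
  · exfalso
    apply hρ (a / b)
    field_simp
    linear_combination h

lemma n4_ne_zero {K : Type*} [Field K] {ρ : K} (hρ : ∀ a : K, a ^ 3 - a ≠ ρ) {x y : Fin 4 → K}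
    (h : x ≠ y) : n4 ρ x y ≠ 0 := by
  intro h0
  obtain ⟨h1, h2⟩ := n1_eq_zero hρ h0
  obtain ⟨a0, a1⟩ := n1_eq_zero hρ h1
  obtain ⟨a2, a3⟩ := n1_eq_zero hρ h2
  apply h
  funext i
  fin_cases i
  exacts [sub_eq_zero.1 a0, sub_eq_zero.1 a1, sub_eq_zero.1 a2, sub_eq_zero.1 a3]

lemma exists_rho (K : Type*) [Field K] [Finite K] : ∃ ρ : K, ∀ a : K, a ^ 3 - a ≠ ρ := by
  by_contra hcon
  push Not at hcon
  have hs : Function.Surjective (fun a : K => a ^ 3 - a) := hcon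
  have hi := Finite.injective_iff_surjective.2 hs
  have : (0 : K) = 1 := hi (by simp)
  exact zero_ne_one this

noncomputable def PF : MvPolynomial (Option (Fin 3 × Fin 4)) ℤ :=
  F3 (MvPolynomial.X none) (fun j => MvPolynomial.X (some (0, j)))
    (fun j => MvPolynomial.X (some (1, j))) (fun j => MvPolynomial.X (some (2, j)))

lemma rank_F3 : ∃ s : ℕ, ∀ (R : Type) [CommRing R] (ρ : R),
    ∃ f g h : Fin s → (Fin 4 → R) → R, ∀ x y z : Fin 4 → R,
      F3 ρ x y z = ∑ θ, f θ x * g θ y * h θ z := by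
  classical
  refine ⟨#PF.support, fun R _ ρ => ?_⟩
  set e := PF.support.equivFin.symm with he
  refine ⟨fun θ x => (Int.castRingHom R) (PF.coeff (e θ).1) * ρ ^ ((e θ).1 none) *
      ∏ j, x j ^ ((e θ).1 (some (0, j))),
    fun θ x => ∏ j, x j ^ ((e θ).1 (some (1, j))),
    fun θ x => ∏ j, x j ^ ((e θ).1 (some (2, j))), fun x y z => ?_⟩
  set v : Option (Fin 3 × Fin 4) → R := fun o => o.elim ρ (fun q => ![x, y, z] q.1 q.2) with hv
  have h1 : F3 ρ x y z = MvPolynomial.eval₂ (Int.castRingHom R) v PF := by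
    rw [← MvPolynomial.coe_eval₂Hom]
    simp [PF, F3, n4, n1, hv]
  rw [h1, MvPolynomial.eval₂_eq', ← sum_coe_sort, ← e.sum_comp]
  refine sum_congr rfl fun θ _ => ?_
  rw [Fintype.prod_option, Fintype.prod_prod_type, Fin.prod_univ_three]
  simp only [hv, Option.elim, Matrix.cons_val_zero, Matrix.cons_val_one, Matrix.cons_val]
  ring

theorem form : ∃ s : ℕ, ∀ (p : ℕ) [Fact p.Prime], 3 < p →
    ∃ f g h : Fin s → (Fin 4 → ZMod p) → ZMod p, ∀ x : Fin 3 → Fin 4 → ZMod p,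
      Function.Injective x →
        ∑ θ, d3 (fun j => f θ (x j)) (fun j => g θ (x j)) (fun j => h θ (x j)) ≠ 0 := by
  obtain ⟨s, hs⟩ := rank_F3
  refine ⟨s, fun p _ hp => ?_⟩
  obtain ⟨ρ, hρ⟩ := exists_rho (ZMod p)
  obtain ⟨f, g, h, H⟩ := hs (ZMod p) ρ
  refine ⟨f, g, h, fun x hx => ?_⟩
  have e : ∑ θ, d3 (fun j => f θ (x j)) (fun j => g θ (x j)) (fun j => h θ (x j)) =
      F3 ρ (x 0) (x 1) (x 2) - F3 ρ (x 0) (x 2) (x 1) - F3 ρ (x 1) (x 0) (x 2) +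
        F3 ρ (x 1) (x 2) (x 0) + F3 ρ (x 2) (x 0) (x 1) - F3 ρ (x 2) (x 1) (x 0) := by
    simp only [H, ← sum_sub_distrib, ← sum_add_distrib]
    refine sum_congr rfl fun θ _ => ?_
    unfold d3
    ring
  have e2 : ∑ θ, d3 (fun j => f θ (x j)) (fun j => g θ (x j)) (fun j => h θ (x j)) =
      6 * F3 ρ (x 0) (x 1) (x 2) := by
    rw [e]
    unfold F3
    rw [n4_swap ρ (x 0) (x 1), n4_swap ρ (x 1) (x 2), n4_swap ρ (x 2) (x 0)]
    ring
  rw [e2]
  have h6 : (6 : ZMod p) ≠ 0 := by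
    intro h0
    have h1 : ((6 : ℕ) : ZMod p) = 0 := by exact_mod_cast h0
    rw [ZMod.natCast_eq_zero_iff] at h1
    have h2 : p ∣ 2 * 3 := h1
    rcases (Nat.Prime.dvd_mul (Fact.out : p.Prime)).1 h2 with h3 | h3
    · have := Nat.le_of_dvd (by norm_num) h3; omega
    · have := Nat.le_of_dvd (by norm_num) h3; omega
  refine mul_ne_zero h6 (mul_ne_zero (mul_ne_zero ?_ ?_) ?_)
  · exact n4_ne_zero hρ (hx.ne (by decide))
  · exact n4_ne_zero hρ (hx.ne (by decide))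
  · exact n4_ne_zero hρ (hx.ne (by decide))

end Crest.Agent.R32
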