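import Crest.Agent.R32.Digit

/-! Row 32: the labelled vectors modulo a prime `M`. -/

set_option autoImplicit false

namespace Crest.Agent.R32

open Finset

lemma cast_ne_zero_of_abs_lt {M : ℕ} {x : ℤ} (h0 : x ≠ 0) (h : |x| < M) : (x : ZMod M) ≠ 0 := by
  intro h1
  rw [ZMod.intCast_zmod_eq_zero_iff_dvd] at h1
  exact h0 (Int.eq_zero_of_abs_lt_dvd h1 h)

lemma one_le_pos_succ (i : ℕ) : 1 ≤ pos (i + 1) := by
  unfold pos
  have : 0 < 2 ^ i := Nat.pos_of_ne_zero (by positivity)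
  rw [pow_succ]; omega

lemma digit_mod {s : ℕ} (f : Fin (s + 1) → ℤ) (G : ℤ) : G ∣ ∑ i, f i * G ^ pos i - f 0 := by
  rw [Fin.sum_univ_succ]
  have : pos ((0 : Fin (s + 1)) : ℕ) = 0 := rfl
  rw [this, pow_zero, mul_one, add_sub_cancel_left]
  refine dvd_sum fun i _ => Dvd.dvd.mul_left (dvd_pow_self _ ?_) _
  have := one_le_pos_succ i
  rw [Fin.val_succ]; omega

lemma digit_bound {s : ℕ} (f : Fin s → ℤ) (q G : ℕ) (hG : 0 < G) (hf : ∀ i, |f i| ≤ q) :
    |∑ i, f i * (G : ℤ) ^ pos i| ≤ (s * q * G ^ pos s : ℕ) := by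
  refine (abs_sum_le_sum_abs _ _).trans ((sum_le_card_nsmul _ _ ((q : ℤ) * G ^ pos s)
    fun i _ => ?_).trans (by simp [mul_assoc]))
  rw [abs_mul, abs_of_nonneg (a := (G : ℤ) ^ pos i) (by positivity)]
  refine mul_le_mul (hf i) (pow_le_pow_right₀ (by exact_mod_cast hG) ?_) (by positivity)
    (by positivity)
  unfold pos
  exact Nat.sub_le_sub_right (Nat.pow_le_pow_right (by norm_num) i.2.le) 1

theorem labels : ∃ C e : ℕ, 0 < C ∧ ∀ (p : ℕ) [Fact p.Prime], C ≤ p →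
    ∃ (M Φ : ℕ) (a b c : (Fin 4 → ZMod p) → ℤ), M.Prime ∧ p ^ 4 ≤ M ∧ M ≤ p ^ e ∧ 0 < Φ ∧
      Φ ≤ M ∧ M ≤ 2 * Φ ^ 2 ∧ (∀ x, (a x : ZMod M) ≠ 0) ∧
      (∀ x z, x ≠ z → ((a x * b z - a z * b x : ℤ) : ZMod M) ≠ 0) ∧
      ∀ x : Fin 3 → Fin 4 → ZMod p, Function.Injective x → ∀ φ : Fin 3 → ℤ,
        (∀ j, 0 ≤ φ j ∧ φ j ≤ Φ) → ∀ t : ℤ, 2 * (C * p ^ 3 : ℕ) * |t| < M →
          ¬ (M : ℤ) ∣ d3 (fun j => a (x j)) (fun j => b (x j)) (fun j => c (x j) + φ j) - t := by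
  obtain ⟨s, hs⟩ := form
  refine ⟨24 * (s + 1) ^ 3, 31 + 64 * pos (s + 1), by positivity, fun p hp hC => ?_⟩
  have hs1 : s + 1 ≤ (s + 1) ^ 3 := Nat.le_self_pow (by norm_num) _
  have hp24 : 24 ≤ p := by omega
  have hsp : s + 1 ≤ p := by omega
  obtain ⟨f, g, h, H0⟩ := hs p (by omega)
  have hq : Fintype.card (Fin 4 → ZMod p) = p ^ 4 := by simp
  set enc := Fintype.equivFinOfCardEq hq with henc
  obtain ⟨H, hH⟩ : ∃ H, H = 24 * (s + 1) ^ 3 * p ^ 3 := ⟨_, rfl⟩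
  obtain ⟨q, hq'⟩ : ∃ q, q = p ^ 4 := ⟨_, rfl⟩
  have hp0 : 0 < p := by omega
  have hH0 : 0 < H := by rw [hH]; positivity
  have hq0 : 0 < q := by rw [hq']; positivity
  have hpq : p ≤ q := by rw [hq']; exact Nat.le_self_pow (by norm_num) _
  have hHq : H ≤ q := by
    rw [hH, hq', pow_succ' p 3]; exact Nat.mul_le_mul_right _ hC
  obtain ⟨B, hB⟩ : ∃ B, B = (s + 1) * q * (H * q ^ 3) ^ pos (s + 1) := ⟨_, rfl⟩
  have hG0 : 0 < H * q ^ 3 := by positivity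
  have hqG : q ≤ H * q ^ 3 :=
    (Nat.le_self_pow (by norm_num) _).trans (Nat.le_mul_of_pos_left _ hH0)
  have hB1 : (s + 1) * q ≤ B := by rw [hB]; exact Nat.le_mul_of_pos_right _ (by positivity)
  have hB0 : 0 < B := lt_of_lt_of_le (by positivity) hB1
  obtain ⟨Φ, hΦ⟩ : ∃ Φ, Φ = 24 * B ^ 2 * H := ⟨_, rfl⟩
  have hBΦ : 2 * B ^ 2 ≤ Φ := by rw [hΦ]; nlinarith [Nat.zero_le (B ^ 2)]
  have hBB : B ≤ B ^ 2 := Nat.le_self_pow (by norm_num) _
  have hΦ0 : 0 < Φ := by omega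
  have hΦΦ : Φ ≤ Φ ^ 2 := Nat.le_self_pow (by norm_num) _
  obtain ⟨M, hM, hM1, hM2⟩ := Nat.exists_prime_lt_and_le_two_mul (Φ ^ 2) (by positivity)
  set f' : Fin (s + 1) → (Fin 4 → ZMod p) → ℤ :=
    Fin.cons (fun _ => 1) (fun θ x => ((f θ x).val : ℤ)) with hf'
  set g' : Fin (s + 1) → (Fin 4 → ZMod p) → ℤ :=
    Fin.cons (fun x => ((enc x : ℕ) : ℤ)) (fun θ x => ((g θ x).val : ℤ)) with hg'
  set h' : Fin (s + 1) → (Fin 4 → ZMod p) → ℤ :=
    Fin.cons (fun _ => 0) (fun θ x => ((h θ x).val : ℤ)) with hh'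
  have hval : ∀ y : ZMod p, |(y.val : ℤ)| ≤ p := fun y => by
    rw [Nat.abs_cast]; exact_mod_cast (ZMod.val_lt y).le
  have hpq' : (p : ℤ) ≤ q := by exact_mod_cast hpq
  have henc' : ∀ x, ((enc x : ℕ) : ℤ) < q := fun x => by
    have := (enc x).2; rw [hq']; exact_mod_cast this
  have hfq : ∀ i x, |f' i x| ≤ q := fun i x => by
    refine Fin.cases ?_ (fun θ => (hval _).trans hpq') i
    simp only [hf', Fin.cons_zero, abs_one]; exact_mod_cast hq0
  have hgq : ∀ i x, |g' i x| ≤ q := fun i x => by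
    refine Fin.cases ?_ (fun θ => (hval _).trans hpq') i
    simp only [hg', Fin.cons_zero, Nat.abs_cast]; exact (henc' x).le
  have hhq : ∀ i x, 0 ≤ h' i x ∧ h' i x ≤ q := fun i x => by
    refine Fin.cases ?_ (fun θ => ⟨Int.natCast_nonneg _,
      (le_abs_self _).trans ((hval _).trans hpq')⟩) i
    simp [hh']
  have haB : ∀ x, |∑ i, f' i x * ((H * q ^ 3 : ℕ) : ℤ) ^ pos i| ≤ B := fun x => by
    rw [hB]; exact digit_bound _ q _ hG0 fun i => hfq i x
  have hbB : ∀ x, |∑ i, g' i x * ((H * q ^ 3 : ℕ) : ℤ) ^ pos i| ≤ B := fun x => by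
    rw [hB]; exact digit_bound _ q _ hG0 fun i => hgq i x
  have hqG' : (q : ℤ) ≤ ((H * q ^ 3 : ℕ) : ℤ) := by exact_mod_cast hqG
  refine ⟨M, Φ, fun x => ∑ i, f' i x * ((H * q ^ 3 : ℕ) : ℤ) ^ pos i,
    fun x => ∑ i, g' i x * ((H * q ^ 3 : ℕ) : ℤ) ^ pos i,
    fun x => ∑ i, h' i x * ((M / (H * (H * q ^ 3) ^ (2 * pos i)) : ℕ) : ℤ),
    hM, ?_, ?_, hΦ0, by omega, hM2, fun x => ?_, fun x z hxz => ?_, fun x hx φ hφ t ht => ?_⟩
  · rw [← hq']; nlinarith
  · have b1 : H * q ^ 3 ≤ p ^ 16 := by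
      calc H * q ^ 3 ≤ q * q ^ 3 := Nat.mul_le_mul_right _ hHq
        _ = p ^ 16 := by rw [hq']; ring
    have b2 : B ≤ p ^ (5 + 16 * pos (s + 1)) := by
      calc B ≤ p * q * (p ^ 16) ^ pos (s + 1) := by rw [hB]; gcongr
        _ = _ := by rw [hq']; ring
    have b3 : Φ ≤ p ^ (15 + 32 * pos (s + 1)) := by
      calc Φ ≤ p * (p ^ (5 + 16 * pos (s + 1))) ^ 2 * q := by rw [hΦ]; gcongr
        _ = _ := by rw [hq']; ring
    calc M ≤ p * (p ^ (15 + 32 * pos (s + 1))) ^ 2 := hM2.trans (by gcongr; omega)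
      _ = _ := by ring
  · refine cast_ne_zero_of_abs_lt (fun h0 => ?_) ((haB x).trans_lt (by exact_mod_cast by omega))
    have h1 := digit_mod (fun i => f' i x) ((H * q ^ 3 : ℕ) : ℤ)
    simp only at h0 h1
    rw [h0] at h1
    have h2 : f' 0 x = 1 := rfl
    rw [h2] at h1
    have := Int.eq_zero_of_abs_lt_dvd h1 (by
      rw [zero_sub, abs_neg, abs_one]; omega)
    omega
  · refine cast_ne_zero_of_abs_lt (fun h0 => ?_) ?_
    · obtain ⟨u1, h1⟩ := digit_mod (fun i => f' i x) ((H * q ^ 3 : ℕ) : ℤ)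
      obtain ⟨u2, h2⟩ := digit_mod (fun i => f' i z) ((H * q ^ 3 : ℕ) : ℤ)
      obtain ⟨u3, h3⟩ := digit_mod (fun i => g' i x) ((H * q ^ 3 : ℕ) : ℤ)
      obtain ⟨u4, h4⟩ := digit_mod (fun i => g' i z) ((H * q ^ 3 : ℕ) : ℤ)
      have e1 : f' 0 x = 1 := rfl
      have e2 : f' 0 z = 1 := rfl
      have e3 : g' 0 x = (enc x : ℕ) := rfl
      have e4 : g' 0 z = (enc z : ℕ) := rfl
      simp only [e1, e2, e3, e4, sub_eq_iff_eq_add] at h0 h1 h2 h3 h4
      rw [h1, h2, h3, h4] at h0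
      set G : ℤ := ((H * q ^ 3 : ℕ) : ℤ)
      have h5 : G ∣ ((enc x : ℕ) : ℤ) - (enc z : ℕ) :=
        ⟨u1 * (G * u4 + (enc z : ℕ)) + u4 - u2 * (G * u3 + (enc x : ℕ)) - u3, by
          linear_combination -h0⟩
      have h6 := Int.eq_zero_of_abs_lt_dvd h5 (by
        have := henc' x; have := henc' z
        rw [abs_lt]; constructor <;> omega)
      exact hxz (enc.injective (Fin.ext (by omega)))
    · have hB' : (0 : ℤ) ≤ B := Int.natCast_nonneg _
      refine (abs_sub _ _).trans_lt ?_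
      rw [abs_mul, abs_mul]
      have a1 := mul_le_mul (haB x) (hbB z) (abs_nonneg _) hB'
      have a2 := mul_le_mul (haB z) (hbB x) (abs_nonneg _) hB'
      have a3 : ((2 * B ^ 2 : ℕ) : ℤ) < M := by exact_mod_cast by omega
      push_cast at a3
      nlinarith
  · have hE : ∑ i, d3 (fun j => f' i (x j)) (fun j => g' i (x j)) (fun j => h' i (x j)) =
        ∑ θ, d3 (fun j => ((f θ (x j)).val : ℤ)) (fun j => ((g θ (x j)).val : ℤ))
          (fun j => ((h θ (x j)).val : ℤ)) := by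
      rw [Fin.sum_univ_succ]
      simp [hf', hg', hh', d3]
    refine digit_core (fun i j => f' i (x j)) (fun i j => g' i (x j)) (fun i j => h' i (x j))
      q H (q ^ 3) M Φ B φ (fun i j => hfq i _) (fun i j => hgq i _) (fun i j => hhq i _) hH0
      (by positivity) ?_ ?_ ?_ (fun j => haB _) (fun j => hbB _) hφ (by omega) ?_ t
      (by rw [hH]; exact ht)
    · rw [hH]
      exact Nat.mul_le_mul_right _ (Nat.le_mul_of_pos_right _ (by positivity))
    · rw [hE]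
      intro h0
      apply H0 x hx
      have := congrArg (Int.castRingHom (ZMod p)) h0
      rw [map_sum, map_zero] at this
      rw [← this]
      refine sum_congr rfl fun θ _ => ?_
      rw [d3_cast]
      simp
    · rw [hE]
      have hv : ∀ y : ZMod p, |((y.val : ℤ) : ℝ)| ≤ p := fun y => by exact_mod_cast hval y
      have b1 : ∀ θ, |d3 (fun j => ((f θ (x j)).val : ℤ)) (fun j => ((g θ (x j)).val : ℤ))
          (fun j => ((h θ (x j)).val : ℤ))| ≤ 6 * (p * p * p) := fun θ => by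
        have := d3_cast (Int.castRingHom ℝ) (fun j => ((f θ (x j)).val : ℤ))
          (fun j => ((g θ (x j)).val : ℤ)) (fun j => ((h θ (x j)).val : ℤ))
        simp only [eq_intCast] at this
        have h2 := abs_d3_le (fun j => hv (f θ (x j))) (fun j => hv (g θ (x j)))
          (fun j => hv (h θ (x j)))
        rw [← this] at h2
        exact_mod_cast h2
      have b2 := (abs_sum_le_sum_abs _ _).trans (sum_le_card_nsmul univ _ _ fun θ _ => b1 θ)
      simp only [card_univ, Fintype.card_fin, nsmul_eq_mul] at b2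
      have b3 : ((24 * (s * p ^ 3) : ℕ) : ℤ) ≤ H := by
        rw [hH, mul_assoc]
        exact_mod_cast Nat.mul_le_mul_left _ (Nat.mul_le_mul_right _ (by omega))
      push_cast at b3
      nlinarith
    · rw [← hΦ]; nlinarith

end Crest.Agent.R32
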