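import Crest.Agent.R32.Form

/-! Row 32: lattice point counts. -/

set_option autoImplicit false

namespace Crest.Agent.R32

open Finset Matrix

/-- sup norm -/
def nrm (k : Fin 3 → ℤ) : ℕ := max (k 0).natAbs (max (k 1).natAbs (k 2).natAbs)

lemma le_nrm (k : Fin 3 → ℤ) (i : Fin 3) : |k i| ≤ nrm k := by
  unfold nrm
  fin_cases i <;> simp only [Fin.zero_eta, Fin.mk_one, Fin.reduceFinMk, Int.abs_eq_natAbs] <;> omega

lemma nrm_le {k : Fin 3 → ℤ} {R : ℕ} (h : ∀ i, |k i| ≤ R) : nrm k ≤ R := by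
  have h0 := h 0; have h1 := h 1; have h2 := h 2
  rw [Int.abs_eq_natAbs] at h0 h1 h2
  unfold nrm; omega

lemma exists_nrm (k : Fin 3 → ℤ) : ∃ i, |k i| = nrm k := by
  unfold nrm
  rcases max_choice (k 0).natAbs (max (k 1).natAbs (k 2).natAbs) with h | h
  · exact ⟨0, by rw [h, Int.abs_eq_natAbs]⟩
  · rcases max_choice (k 1).natAbs (k 2).natAbs with h' | h'
    · exact ⟨1, by rw [h, h', Int.abs_eq_natAbs]⟩
    · exact ⟨2, by rw [h, h', Int.abs_eq_natAbs]⟩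

lemma nrm_pos {k : Fin 3 → ℤ} (h : k ≠ 0) : 0 < nrm k := by
  by_contra h0
  apply h
  funext i
  have := le_nrm k i
  have h1 : nrm k = 0 := by omega
  rw [h1] at this
  simpa using this

noncomputable def box (R : ℕ) : Finset (Fin 3 → ℤ) := Fintype.piFinset fun _ => Icc (-(R : ℤ)) R

lemma mem_box {R : ℕ} {k : Fin 3 → ℤ} : k ∈ box R ↔ nrm k ≤ R := by
  simp only [box, Fintype.mem_piFinset, mem_Icc, ← abs_le]
  exact ⟨nrm_le, fun h i => (le_nrm k i).trans (by exact_mod_cast h)⟩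

lemma card_box {R : ℕ} (hR : 1 ≤ R) : (#(box R) : ℝ) ≤ 27 * R ^ 3 := by
  have h : #(box R) = (2 * R + 1) ^ 3 := by
    simp only [box, Fintype.card_piFinset, Int.card_Icc, prod_const, card_univ, Fintype.card_fin]
    congr 1; omega
  have h2 : (2 * R + 1) ^ 3 ≤ (3 * R) ^ 3 := Nat.pow_le_pow_left (by omega) _
  rw [h]
  have : (((2 * R + 1) ^ 3 : ℕ) : ℝ) ≤ ((3 * R) ^ 3 : ℕ) := by exact_mod_cast h2
  refine this.trans (le_of_eq ?_)
  push_cast; ring

lemma nrm_cross (y z : Fin 3 → ℤ) : nrm (y ⨯₃ z) ≤ 2 * (nrm y * nrm z) := by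
  have h : ∀ a b c d : Fin 3, |y a * z b - y c * z d| ≤ (2 * (nrm y * nrm z) : ℕ) := by
    intro a b c d
    refine (abs_sub _ _).trans ?_
    rw [abs_mul, abs_mul]
    have h1 := mul_le_mul (le_nrm y a) (le_nrm z b) (abs_nonneg _) (Int.natCast_nonneg _)
    have h2 := mul_le_mul (le_nrm y c) (le_nrm z d) (abs_nonneg _) (Int.natCast_nonneg _)
    push_cast; linarith
  refine nrm_le fun i => ?_
  rw [cross_apply]
  fin_cases i <;> exact h _ _ _ _

lemma nrm_smul (j : ℤ) (k : Fin 3 → ℤ) : nrm (j • k) = j.natAbs * nrm k := by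
  simp only [nrm, Pi.smul_apply, smul_eq_mul, Int.natAbs_mul, mul_max]

lemma cross_eq_zero {R : Type*} [CommRing R] {e d : Fin 3 → R} (h : e ⨯₃ d = 0) (a b : Fin 3) :
    e a * d b = e b * d a := by
  rw [cross_apply] at h
  have h0 := congrFun h 0; have h1 := congrFun h 1; have h2 := congrFun h 2
  simp only [cons_val_zero, cons_val_one, Matrix.cons_val, Pi.zero_apply] at h0 h1 h2
  fin_cases a <;> fin_cases b <;> simp only [Fin.zero_eta, Fin.mk_one, Fin.reduceFinMk] <;>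
    first | rfl | linear_combination h0 | linear_combination h1 | linear_combination h2 |
      linear_combination -h0 | linear_combination -h1 | linear_combination -h2

lemma cross_trans {R : Type*} [CommRing R] [IsDomain R] {e y z : Fin 3 → R} (he : e ≠ 0)
    (h1 : e ⨯₃ y = 0) (h2 : e ⨯₃ z = 0) : y ⨯₃ z = 0 := by
  obtain ⟨i, hi⟩ := Function.ne_iff.1 he
  have h : ∀ a b, y a * z b - y b * z a = 0 := fun a b => by
    refine (mul_eq_zero.1 (?_ : e i * (y a * z b - y b * z a) = 0)).resolve_left hi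
    linear_combination z b * cross_eq_zero h1 i a - z a * cross_eq_zero h1 i b +
      y i * cross_eq_zero h2 a b
  rw [cross_apply, h, h, h]
  funext i; fin_cases i <;> rfl

theorem lattice_count (P : (Fin 3 → ℤ) → Prop) [DecidablePred P]
    (hsub : ∀ y z, P y → P z → P (y - z)) (k : Fin 3 → ℤ) (J : ℕ)
    (hY : ∀ y z, P y → P z → ∃ j : ℤ, y ⨯₃ z = (J * j) • k) (R : ℕ) (y₁ y₂ : Fin 3 → ℤ)
    (h₁ : P y₁) (h₂ : P y₂) (hR₁ : nrm y₁ ≤ R) (hR₂ : nrm y₂ ≤ R) (hne : y₁ ⨯₃ y₂ ≠ 0) :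
    #((box R).filter P) * (J * nrm k) ≤ 18 * R ^ 2 := by
  classical
  have hy₁ : y₁ ≠ 0 := fun h => hne (by simp [h])
  have hex : ∃ n, ∃ e, P e ∧ e ≠ 0 ∧ nrm e = n := ⟨_, y₁, h₁, hy₁, rfl⟩
  obtain ⟨e, he, he0, hl⟩ := Nat.find_spec hex
  have hmin : ∀ y, P y → y ≠ 0 → nrm e ≤ nrm y := fun y hy hy0 => by
    rw [hl]; exact Nat.find_min' hex ⟨y, hy, hy0, rfl⟩
  obtain ⟨l, hl'⟩ : ∃ l, l = nrm e := ⟨_, rfl⟩
  have hl0 : 0 < l := hl' ▸ nrm_pos he0
  have hlR : l ≤ R := hl' ▸ (hmin y₁ h₁ hy₁).trans hR₁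
  obtain ⟨d, hd⟩ : ∃ d, d = J * nrm k := ⟨_, rfl⟩
  rw [← hd]
  choose! j hj using fun y hy => hY e y he hy
  have hjb : ∀ y, P y → nrm y ≤ R → (j y).natAbs * d ≤ 2 * (l * R) := fun y hy hyR => by
    have := nrm_cross e y
    rw [hj y hy, nrm_smul, Int.natAbs_mul, Int.natAbs_natCast, ← hl'] at this
    calc (j y).natAbs * d = J * (j y).natAbs * nrm k := by rw [hd]; ring
      _ ≤ 2 * (l * nrm y) := this
      _ ≤ _ := by gcongr
  have hd1 : d ≤ 2 * (l * R) := by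
    have : ∃ y, P y ∧ nrm y ≤ R ∧ e ⨯₃ y ≠ 0 := by
      by_contra hcon
      push Not at hcon
      exact hne (cross_trans he0 (hcon y₁ h₁ hR₁) (hcon y₂ h₂ hR₂))
    obtain ⟨y, hy, hyR, hy0⟩ := this
    have h3 : j y ≠ 0 := fun h => hy0 (by rw [hj y hy, h]; simp)
    exact (Nat.le_mul_of_pos_left _ (Int.natAbs_pos.2 h3)).trans (hjb y hy hyR)
  rcases Nat.eq_zero_or_pos d with hd0 | hd0
  · simp [hd0]
  obtain ⟨i, hi⟩ := exists_nrm e
  rw [← hl'] at hi
  have hl0' : (0 : ℤ) < l := by exact_mod_cast hl0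
  obtain ⟨X, hX⟩ : ∃ X, X = 2 * (l * R) / d := ⟨_, rfl⟩
  obtain ⟨W, hW⟩ : ∃ W, W = 2 * R / l := ⟨_, rfl⟩
  have hcard : #((box R).filter P) ≤ #(Icc (-(X : ℤ)) X ×ˢ Icc (0 : ℤ) W) := by
    refine card_le_card_of_injOn (fun y => (j y, (y i + R) / l)) (fun y hy => ?_)
      (fun y hy z hz hyz => ?_)
    · obtain ⟨hy1, hy2⟩ := mem_filter.1 (mem_coe.1 hy)
      rw [mem_box] at hy1
      have a1 : (j y).natAbs ≤ X := by
        rw [hX]; exact (Nat.le_div_iff_mul_le hd0).2 (hjb y hy2 hy1)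
      have a2 := abs_le.1 ((le_nrm y i).trans (show (nrm y : ℤ) ≤ R by exact_mod_cast hy1))
      simp only [coe_product, Set.mem_prod, coe_Icc, Set.mem_Icc]
      refine ⟨by omega, Int.ediv_nonneg (by omega) hl0'.le, ?_⟩
      rw [hW]; push_cast
      exact Int.ediv_le_ediv hl0' (by omega)
    · obtain ⟨hy1, hy2⟩ := mem_filter.1 (mem_coe.1 hy)
      obtain ⟨hz1, hz2⟩ := mem_filter.1 (mem_coe.1 hz)
      obtain ⟨e1, e2⟩ := Prod.mk.inj hyz
      by_contra hne'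
      have a1 : e ⨯₃ (y - z) = 0 := by rw [map_sub, hj y hy2, hj z hz2, e1, sub_self]
      have a2 : l ≤ nrm (y - z) := hl' ▸ hmin _ (hsub y z hy2 hz2) (sub_ne_zero.2 hne')
      obtain ⟨c, hc⟩ := exists_nrm (y - z)
      have a3 := congrArg abs (cross_eq_zero a1 i c)
      rw [abs_mul, abs_mul, hi, hc] at a3
      have a4 : |e c| ≤ l := hl' ▸ le_nrm e c
      have a5 : (l : ℤ) * nrm (y - z) ≤ l * |(y - z) i| := by
        rw [a3]; exact mul_le_mul_of_nonneg_right a4 (abs_nonneg _)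
      have a6 := le_of_mul_le_mul_left a5 hl0'
      have a7 : |(y - z) i| < l := by
        have b1 := Int.emod_add_mul_ediv (y i + R) l
        have b2 := Int.emod_add_mul_ediv (z i + R) l
        have b3 := Int.emod_nonneg (y i + R) hl0'.ne'
        have b4 := Int.emod_nonneg (z i + R) hl0'.ne'
        have b5 := Int.emod_lt_of_pos (y i + R) hl0'
        have b6 := Int.emod_lt_of_pos (z i + R) hl0'
        rw [e2] at b1
        rw [Pi.sub_apply, abs_lt]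
        constructor <;> linarith
      omega
  rw [card_product, Int.card_Icc, Int.card_Icc] at hcard
  have c1 : ((X : ℤ) + 1 - -(X : ℤ)).toNat = 2 * X + 1 := by omega
  have c2 : ((W : ℤ) + 1 - 0).toNat = W + 1 := by omega
  rw [c1, c2] at hcard
  have c3 : X * d ≤ 2 * (l * R) := by rw [hX]; exact Nat.div_mul_le_self _ _
  have c4 : W * l ≤ 2 * R := by rw [hW]; exact Nat.div_mul_le_self _ _
  calc #((box R).filter P) * d ≤ (2 * X + 1) * (W + 1) * d := Nat.mul_le_mul_right _ hcard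
    _ = (2 * (X * d) + d) * (W + 1) := by ring
    _ ≤ (6 * (l * R)) * (W + 1) := Nat.mul_le_mul_right _ (by omega)
    _ = 6 * R * (W * l + l) := by ring
    _ ≤ 6 * R * (3 * R) := Nat.mul_le_mul_left _ (by omega)
    _ = _ := by ring

/-- primitive vectors -/
def Prim (k : Fin 3 → ℤ) : Prop := ∃ α : Fin 3 → ℤ, α ⬝ᵥ k = 1

lemma Prim.ne_zero {k : Fin 3 → ℤ} (h : Prim k) : k ≠ 0 := by
  rintro rfl
  obtain ⟨α, h⟩ := h
  simp at h

lemma exists_prim {w : Fin 3 → ℤ} (hw : w ≠ 0) :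
    ∃ (j : ℤ) (k : Fin 3 → ℤ), j ≠ 0 ∧ Prim k ∧ w = j • k := by
  obtain ⟨α, hα⟩ := Finset.gcd_eq_sum_mul (univ : Finset (Fin 3)) w
  have hdvd : ∀ i, univ.gcd w ∣ w i := fun i => gcd_dvd (mem_univ i)
  choose k hk using hdvd
  have h0 : univ.gcd w ≠ 0 := fun h => hw (funext fun i => by rw [hk i, h]; simp)
  refine ⟨univ.gcd w, k, h0, ⟨α, mul_left_cancel₀ h0 ?_⟩, funext fun i => hk i⟩
  rw [mul_one, dotProduct, mul_sum]
  conv_rhs => rw [hα]
  refine sum_congr rfl fun i _ => ?_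
  conv_rhs => rw [hk i]
  ring

lemma cross_of_perp {k α y z : Fin 3 → ℤ} (hα : α ⬝ᵥ k = 1) (hy : y ⬝ᵥ k = 0)
    (hz : z ⬝ᵥ k = 0) : y ⨯₃ z = (α ⬝ᵥ y ⨯₃ z) • k := by
  simp only [dotProduct, Fin.sum_univ_three, cross_apply, cons_val_zero, cons_val_one,
    Matrix.cons_val] at *
  funext i
  fin_cases i <;> simp only [Fin.zero_eta, Fin.mk_one, Fin.reduceFinMk, cons_val_zero,
    cons_val_one, Matrix.cons_val, Pi.smul_apply, smul_eq_mul]
  · linear_combination (-(y 1 * z 2 - y 2 * z 1)) * hα + (α 1 * z 2 - α 2 * z 1) * hy -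
      (α 1 * y 2 - α 2 * y 1) * hz
  · linear_combination (-(y 2 * z 0 - y 0 * z 2)) * hα + (α 2 * z 0 - α 0 * z 2) * hy -
      (α 2 * y 0 - α 0 * y 2) * hz
  · linear_combination (-(y 0 * z 1 - y 1 * z 0)) * hα + (α 0 * z 1 - α 1 * z 0) * hy -
      (α 0 * y 1 - α 1 * y 0) * hz

theorem shells (T : Finset (Fin 3 → ℤ)) (ω : (Fin 3 → ℤ) → ℝ) (hω : ∀ k, 0 ≤ ω k)
    (hT : ∀ k ∈ T, k ≠ 0) (y : ℝ) (b : ℕ) (hb : 1 ≤ b)
    (hW : ∀ K : ℕ, 1 ≤ K → ∑ k ∈ T with nrm k ≤ K, ω k ≤ y * K ^ 3) (S : ℕ) :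
    ∑ k ∈ T with nrm k < b ^ S, ω k / (nrm k : ℝ) ^ 3 ≤ S * (y * b ^ 3) := by
  induction S with
  | zero =>
    rw [filter_false_of_mem fun k hk => by have := nrm_pos (hT k hk); rw [pow_zero]; omega]
    simp
  | succ S ih =>
    have hbS : 1 ≤ b ^ S := Nat.one_le_pow _ _ hb
    have hbS' : (0 : ℝ) < (b : ℝ) ^ S := by exact_mod_cast hbS
    rw [← sum_filter_add_sum_filter_not _ (fun k => nrm k < b ^ S), filter_filter, filter_filter]
    have e1 : T.filter (fun k => nrm k < b ^ (S + 1) ∧ nrm k < b ^ S) =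
        T.filter (fun k => nrm k < b ^ S) := filter_congr fun k _ =>
      ⟨fun h => h.2, fun h => ⟨h.trans_le (Nat.pow_le_pow_right hb (by omega)), h⟩⟩
    have e2 : ∑ k ∈ T with nrm k < b ^ (S + 1) ∧ ¬ nrm k < b ^ S, ω k / (nrm k : ℝ) ^ 3 ≤
        y * b ^ 3 := by
      calc _ ≤ ∑ k ∈ T with nrm k < b ^ (S + 1) ∧ ¬ nrm k < b ^ S, ω k / ((b : ℝ) ^ S) ^ 3 := by
            refine sum_le_sum fun k hk => ?_
            have : ((b : ℝ) ^ S) ≤ nrm k := by exact_mod_cast not_lt.1 (mem_filter.1 hk).2.2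
            gcongr
            exact hω k
        _ ≤ ∑ k ∈ T with nrm k ≤ b ^ (S + 1), ω k / ((b : ℝ) ^ S) ^ 3 :=
            sum_le_sum_of_subset_of_nonneg (fun k hk => mem_filter.2
              ⟨(mem_filter.1 hk).1, (mem_filter.1 hk).2.1.le⟩)
              fun k _ _ => div_nonneg (hω k) (by positivity)
        _ ≤ y * ((b ^ (S + 1) : ℕ) : ℝ) ^ 3 / ((b : ℝ) ^ S) ^ 3 := by
            rw [← sum_div]
            gcongr
            exact hW _ (Nat.one_le_pow _ _ hb)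
        _ = _ := by push_cast; field_simp; ring
    rw [e1]
    push_cast
    linarith

end Crest.Agent.R32
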