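import Crest.Agent.R32.Sample

/-! Row 32: choice of the parameters. -/

set_option autoImplicit false

namespace Crest.Agent.R32

open Finset Matrix

lemma exists_L (q M m Y n : ℕ) (hq0 : 0 < q) (hm0 : 0 < m) (hq : q ≤ M) (hY : n ^ 2 * M ≤ Y)
    (hn0 : 0 < n) (hn : 512 * m ^ 9 ≤ n) :
    ∃ L, 0 < L ∧ Y ≤ q * (m * L) ^ 3 ∧ q * (m * L) ^ 3 ≤ 8 * Y ∧ 8 * n * m ≤ L ^ 2 := by
  have hY0 : 0 < Y := lt_of_lt_of_le (Nat.mul_pos (by positivity) (by omega)) hY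
  have hex : ∃ L, Y ≤ q * (m * L) ^ 3 := ⟨Y, by
    calc Y ≤ (m * Y) ^ 3 := (Nat.le_mul_of_pos_left _ hm0).trans (Nat.le_self_pow (by norm_num) _)
      _ ≤ _ := Nat.le_mul_of_pos_left _ hq0⟩
  classical
  have h1 := Nat.find_spec hex
  have h2 := fun L => Nat.find_min hex (m := L)
  generalize Nat.find hex = L at h1 h2
  have hL : 0 < L := by
    rcases Nat.eq_zero_or_pos L with rfl | h
    · simp at h1; omega
    · exact h
  refine ⟨L, hL, h1, ?_, ?_⟩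
  · rcases Nat.lt_or_ge L 2 with h | h
    · obtain rfl : L = 1 := by omega
      have a1 : m ^ 3 ≤ m ^ 9 := Nat.pow_le_pow_right hm0 (by norm_num)
      have a2 : n ≤ n ^ 2 := Nat.le_self_pow (by norm_num) _
      calc q * (m * 1) ^ 3 = m ^ 3 * q := by ring
        _ ≤ n ^ 2 * M := Nat.mul_le_mul (by omega) hq
        _ ≤ _ := by omega
    · have a1 := not_le.1 (h2 (L - 1) (by omega))
      calc q * (m * L) ^ 3 ≤ q * (m * (2 * (L - 1))) ^ 3 := by gcongr; omega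
        _ = 8 * (q * (m * (L - 1)) ^ 3) := by ring
        _ ≤ _ := by omega
  · have a1 : n ^ 2 ≤ (m * L) ^ 3 := Nat.le_of_mul_le_mul_left (c := q) (by
      calc q * n ^ 2 = n ^ 2 * q := by ring
        _ ≤ n ^ 2 * M := Nat.mul_le_mul_left _ hq
        _ ≤ _ := hY.trans h1) hq0
    refine (Nat.pow_le_pow_iff_left (n := 3) (by norm_num)).1 ?_
    refine Nat.le_of_mul_le_mul_left (c := m ^ 6) ?_ (by positivity)
    calc m ^ 6 * (8 * n * m) ^ 3 = n ^ 3 * (512 * m ^ 9) := by ring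
      _ ≤ n ^ 3 * n := Nat.mul_le_mul_left _ hn
      _ = (n ^ 2) ^ 2 := by ring
      _ ≤ ((m * L) ^ 3) ^ 2 := Nat.pow_le_pow_left a1 _
      _ = _ := by ring

theorem points : ∃ D c n₀ : ℕ, 0 < D ∧ 0 < c ∧ ∀ n, n₀ ≤ n → ∃ y : ℕ, n ≤ y ^ D ∧
    ∃ u : Fin n → Fin 3 → ℤ, (∀ i, 0 ≤ u i 0 ∧ u i 0 ≤ u i 2 ∧ 0 ≤ u i 1 ∧ u i 1 ≤ u i 2 ∧
      0 < u i 2) ∧ (∀ i j, i ≠ j → u i ⨯₃ u j ≠ 0) ∧
      ∀ ι : Fin 3 → Fin n, Function.Injective ι →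
        y * (u (ι 0) 2 * u (ι 1) 2 * u (ι 2) 2) ≤ c * n ^ 2 * |(cols u ι).det| := by
  classical
  obtain ⟨C, e, hC, hlab⟩ := labels
  obtain ⟨A, hA⟩ : ∃ A, A = 7 * (4 * e + 1) := ⟨_, rfl⟩
  obtain ⟨D, hD⟩ : ∃ D, D = 9 * A + 9 := ⟨_, rfl⟩
  obtain ⟨S, hS⟩ : ∃ S, S = 5 * D + 4 := ⟨_, rfl⟩
  obtain ⟨K, hK⟩ : ∃ K, K = 10 ^ 12 * S := ⟨_, rfl⟩
  have hK0 : 0 < K := by rw [hK, hS]; positivity
  have hD0 : 0 < D := by omega
  refine ⟨D, 128 * K * C, (64 * K + C + 2) ^ D, hD0, by positivity, fun n hn => ?_⟩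
  obtain ⟨b, hb1, hb2⟩ : ∃ b, b ^ D ≤ n ∧ n < (b + 1) ^ D :=
    ⟨Nat.nthRoot D n, Nat.pow_nthRoot_le (Or.inl hD0.ne'), Nat.lt_pow_nthRoot_add_one hD0.ne' n⟩
  have hb3 : 64 * K + C + 2 ≤ b :=
    Nat.lt_succ_iff.1 (lt_of_pow_lt_pow_left₀ D (Nat.zero_le _) (hn.trans_lt hb2))
  have hb : 2 ≤ b := by omega
  have hb0 : 0 < b := by omega
  have hbb : b + 1 ≤ b ^ 2 := by nlinarith
  obtain ⟨p, hp, hp1, hp2⟩ := Nat.exists_prime_lt_and_le_two_mul (b ^ 6) (by positivity)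
  have := Fact.mk hp
  have hbp : b ≤ p := (Nat.le_self_pow (by norm_num) _).trans hp1.le
  obtain ⟨M, Φ, a, a', c, hM, hqM, hMe, hΦ0, hΦ1, hΦ2, l1, l2, l3⟩ := hlab p (by omega)
  have := Fact.mk hM
  have hM2 := hM.two_le
  obtain ⟨r, hr, hr1, hr2⟩ := Nat.exists_prime_lt_and_le_two_mul (M ^ 3) (by positivity)
  have := Fact.mk hr
  obtain ⟨β, hβ⟩ := FiniteField.exists_nonsquare (F := ZMod r) (by
    rw [ZMod.ringChar_zmod_n]
    have : 2 ^ 3 ≤ M ^ 3 := Nat.pow_le_pow_left hM2 _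
    omega)
  have hq : Fintype.card (Fin 4 → ZMod p) = p ^ 4 := by simp
  obtain ⟨s1, s2, s3, s4⟩ := side M Φ (C * p ^ 3) a a' c (by rw [hq]; exact hqM) hΦ1 hΦ2 l1 l2 l3
  rw [hq] at s1 s2
  have hm : M * r ≤ b ^ A := by
    calc M * r ≤ M * (2 * M ^ 3) := Nat.mul_le_mul_left _ hr2
      _ = 2 * M ^ 4 := by ring
      _ ≤ p * (p ^ e) ^ 4 := by gcongr; omega
      _ = p ^ (4 * e + 1) := by ring
      _ ≤ (b * b ^ 6) ^ (4 * e + 1) := by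
          gcongr; exact hp2.trans (Nat.mul_le_mul_right _ hb)
      _ = _ := by rw [hA]; ring
  have hn0 : 0 < n := lt_of_lt_of_le (by positivity) hb1
  have hp0 : 0 < p := hp.pos
  obtain ⟨L, hL, L1, L2, L3⟩ := exists_L (p ^ 4) M (M * r) (K * (n ^ 2 * b ^ 3 * M)) n
    (by positivity) (Nat.mul_pos hM.pos hr.pos) hqM (by
      calc n ^ 2 * M = 1 * (n ^ 2 * 1 * M) := by ring
        _ ≤ _ := by gcongr; exacts [hK0, Nat.one_le_pow _ _ hb0]) hn0 (by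
      calc 512 * (M * r) ^ 9 = 2 ^ 9 * (M * r) ^ 9 := by norm_num
        _ ≤ b ^ 9 * (b ^ A) ^ 9 := by gcongr
        _ = b ^ D := by rw [hD]; ring
        _ ≤ n := hb1)
  have hN0 : 0 < M * r * L := Nat.mul_pos (Nat.mul_pos hM.pos hr.pos) hL
  have : Nonempty (Fin Φ) := ⟨⟨0, hΦ0⟩⟩
  obtain ⟨u, u1, u2, u3⟩ := sample M r (p ^ 4) (C * p ^ 3) L b S n (sv M Φ a a' c) β hβ
    (by positivity) (by positivity) hqM hr1.le s1 s2 s3 s4 hb0 hL (by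
      have a1 : n ≤ b ^ (2 * D) := by rw [pow_mul]; exact hb2.le.trans (Nat.pow_le_pow_left hbb _)
      have a2 : M ≤ b ^ D := (Nat.le_mul_of_pos_right _ hr.pos).trans
        (hm.trans (Nat.pow_le_pow_right hb0 (by omega)))
      calc 2 * (2 * (M * r * L)) ^ 2 = 8 * (1 * (M * r * L) ^ 2) := by ring
        _ ≤ 8 * (p ^ 4 * (M * r * L) ^ 3) := by
            exact Nat.mul_le_mul_left _ (Nat.mul_le_mul (Nat.one_le_pow _ _ hp0)
              (Nat.pow_le_pow_right hN0 (by norm_num)))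
        _ ≤ 8 * (8 * (K * (n ^ 2 * b ^ 3 * M))) := Nat.mul_le_mul_left _ L2
        _ ≤ 8 * (8 * (K * ((b ^ (2 * D)) ^ 2 * b ^ 3 * b ^ D))) := by gcongr
        _ = 64 * K * b ^ (5 * D + 3) := by ring
        _ < b * b ^ (5 * D + 3) := Nat.mul_lt_mul_of_pos_right (by omega) (by positivity)
        _ = _ := by rw [hS]; ring)
    (le_of_eq_of_le (by rw [hK]; ring) L1) L3
  refine ⟨b ^ 3, hb2.le.trans (Nat.pow_le_pow_left (hbb.trans (Nat.pow_le_pow_right hb0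
    (by norm_num))) _), u, fun i => ⟨(u1 i).1, (u1 i).2.1, (u1 i).2.2.1, (u1 i).2.2.2.1,
      (u1 i).2.2.2.2.1⟩, u2, fun ι hι => ?_⟩
  have h1 := u3 ι hι
  rw [← Int.natCast_natAbs] at h1 ⊢
  generalize (cols u ι).det.natAbs = d at h1 ⊢
  generalize M * r * L = N at *
  have h2 : M ≤ 2 * (C * p ^ 3) * d := by exact_mod_cast h1
  have h3 : b ^ 3 * (2 * N) ^ 3 ≤ 128 * K * C * n ^ 2 * d := by
    refine Nat.le_of_mul_le_mul_left (c := p ^ 3 * b ^ 3) ?_ (by positivity)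
    calc _ = 8 * (p ^ 3 * b ^ 6 * N ^ 3) := by ring
      _ ≤ 8 * (p ^ 3 * p * N ^ 3) := by gcongr
      _ = 8 * (p ^ 4 * N ^ 3) := by ring
      _ ≤ 8 * (8 * (K * (n ^ 2 * b ^ 3 * M))) := Nat.mul_le_mul_left _ L2
      _ ≤ 8 * (8 * (K * (n ^ 2 * b ^ 3 * (2 * (C * p ^ 3) * d)))) := by gcongr
      _ = _ := by ring
  have h4 : u (ι 0) 2 * u (ι 1) 2 * u (ι 2) 2 ≤ ((2 * N : ℕ) : ℤ) ^ 3 := by
    have a0 := (u1 (ι 0)).2.2.2.2
    have a1 := (u1 (ι 1)).2.2.2.2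
    have a2 := (u1 (ι 2)).2.2.2.2
    rw [pow_three']
    exact mul_le_mul (mul_le_mul a0.2 a1.2 a1.1.le (by positivity)) a2.2 a2.1.le (by positivity)
  refine (mul_le_mul_of_nonneg_left h4 (by positivity)).trans ?_
  exact_mod_cast h3

end Crest.Agent.R32
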