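import Crest.Agent.R32.Lattice

/-! Row 32: orbit counts for `SL₃` and `GL₃` over a finite field. -/

set_option autoImplicit false

namespace Crest.Agent.R32

open Finset Matrix

variable {F : Type*} [Field F] [Fintype F] [DecidableEq F]

/-- number of row vectors `γ` with `γ Z₀ = ρ` -/
def rowc (Z₀ : Matrix (Fin 3) (Fin 3) F) (ρ : Fin 3 → F) : ℕ := #{γ : Fin 3 → F | γ ᵥ* Z₀ = ρ}

lemma card_fib (Z₀ Z : Matrix (Fin 3) (Fin 3) F) :
    #{g : Matrix (Fin 3) (Fin 3) F | g * Z₀ = Z} ≤ ∏ i, rowc Z₀ (Z i) := by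
  simp only [rowc]
  rw [← Fintype.card_piFinset]
  refine card_le_card_of_injOn (fun g => g) (fun g hg => ?_) (fun _ _ _ _ h => h)
  have h := (mem_filter.1 (mem_coe.1 hg)).2
  simp only [mem_coe, Fintype.mem_piFinset, mem_filter, mem_univ, true_and]
  intro i
  rw [← h, mul_apply_eq_vecMul]

omit [Fintype F] in
lemma fib_le_one (𝒢 : Finset (Matrix (Fin 3) (Fin 3) F)) {Z₀ : Matrix (Fin 3) (Fin 3) F}
    (h : Z₀.det ≠ 0) (Z : Matrix (Fin 3) (Fin 3) F) : #{g ∈ 𝒢 | g * Z₀ = Z} ≤ 1 := by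
  refine card_le_one.2 fun g hg g' hg' => ?_
  have hu : IsUnit Z₀ := (isUnit_iff_isUnit_det _).2 (isUnit_iff_ne_zero.2 h)
  exact hu.mul_left_inj.1 (by rw [(mem_filter.1 hg).2, (mem_filter.1 hg').2])

variable (F) in
def SLs : Finset (Matrix (Fin 3) (Fin 3) F) := {g | g.det = 1}

variable (F) in
def GLs : Finset (Matrix (Fin 3) (Fin 3) F) := {g | g.det ≠ 0}

lemma card_GLs : Fintype.card F ^ 9 ≤ 4 * #(GLs F) := by
  have h1 : Nat.card (GL (Fin 3) F) ≤ #(GLs F) := by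
    rw [← Nat.card_eq_finsetCard]
    refine Nat.card_le_card_of_injective (fun g => ⟨g.1, ?_⟩) (fun g g' h => ?_)
    · simp only [GLs, mem_filter, mem_univ, true_and]
      exact ((isUnit_iff_isUnit_det _).1 g.isUnit).ne_zero
    · exact Units.ext (congrArg Subtype.val h)
  rw [card_GL_field, Fin.prod_univ_three] at h1
  obtain ⟨l, hl⟩ : ∃ l, Fintype.card F = l + 2 :=
    ⟨_, (Nat.sub_add_cancel Fintype.one_lt_card).symm⟩
  rw [hl] at h1 ⊢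
  have e0 : (l + 2) ^ 3 - (l + 2) ^ ((0 : Fin 3) : ℕ) = l ^ 3 + 6 * l ^ 2 + 12 * l + 7 := by
    apply Nat.sub_eq_of_eq_add; simp; ring
  have e1 : (l + 2) ^ 3 - (l + 2) ^ ((1 : Fin 3) : ℕ) = l ^ 3 + 6 * l ^ 2 + 11 * l + 6 := by
    apply Nat.sub_eq_of_eq_add; simp; ring
  have e2 : (l + 2) ^ 3 - (l + 2) ^ ((2 : Fin 3) : ℕ) = l ^ 3 + 5 * l ^ 2 + 8 * l + 4 := by
    apply Nat.sub_eq_of_eq_add; simp; ring
  rw [e0, e1, e2] at h1
  refine le_trans ?_ (Nat.mul_le_mul_left 4 h1)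
  have b0 : 7 * (l + 2) ^ 3 ≤ 8 * (l ^ 3 + 6 * l ^ 2 + 12 * l + 7) := by
    nlinarith [Nat.zero_le (l ^ 3), Nat.zero_le (l ^ 2)]
  have b1 : 3 * (l + 2) ^ 3 ≤ 4 * (l ^ 3 + 6 * l ^ 2 + 11 * l + 6) := by
    nlinarith [Nat.zero_le (l ^ 3), Nat.zero_le (l ^ 2)]
  have b2 : (l + 2) ^ 3 ≤ 2 * (l ^ 3 + 5 * l ^ 2 + 8 * l + 4) := by
    nlinarith [Nat.zero_le (l ^ 3), Nat.zero_le (l ^ 2)]
  have b3 := Nat.mul_le_mul (Nat.mul_le_mul b0 b1) b2
  generalize l ^ 3 + 6 * l ^ 2 + 12 * l + 7 = x at *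
  generalize l ^ 3 + 6 * l ^ 2 + 11 * l + 6 = y at *
  generalize l ^ 3 + 5 * l ^ 2 + 8 * l + 4 = z at *
  have e3 : 7 * (l + 2) ^ 3 * (3 * (l + 2) ^ 3) * (l + 2) ^ 3 = 21 * (l + 2) ^ 9 := by ring
  have e4 : 8 * x * (4 * y) * (2 * z) = 64 * (x * y * z) := by ring
  omega

lemma card_SLs : Fintype.card F ^ 8 ≤ 4 * #(SLs F) := by
  have h1 : #(GLs F) ≤ #(SLs F) * #(univ : Finset F) := by
    refine card_le_mul_card_image_of_maps_to (f := det) (fun _ _ => mem_univ _) _ fun c _ => ?_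
    by_cases hc : c = 0
    · rw [filter_false_of_mem (s := GLs F) (p := fun g => g.det = c) fun g hg h =>
        (mem_filter.1 hg).2 (Eq.trans h hc)]; simp
    have hd : (diagonal ![c⁻¹, 1, 1] : Matrix (Fin 3) (Fin 3) F).det = c⁻¹ := by
      simp [Fin.prod_univ_three]
    have hu : IsUnit (diagonal ![c⁻¹, 1, 1] : Matrix (Fin 3) (Fin 3) F) :=
      (isUnit_iff_isUnit_det _).2 (isUnit_iff_ne_zero.2 (by rw [hd]; exact inv_ne_zero hc))
    refine card_le_card_of_injOn (fun g => g * diagonal ![c⁻¹, 1, 1]) (fun g hg => ?_)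
      (fun g _ g' _ h => hu.mul_left_inj.1 h)
    simp only [SLs, mem_coe, mem_filter, mem_univ, true_and]
    rw [det_mul, hd, (mem_filter.1 (mem_coe.1 hg)).2, mul_inv_cancel₀ hc]
  rw [card_univ] at h1
  have h2 := card_GLs (F := F)
  refine Nat.le_of_mul_le_mul_right (c := Fintype.card F) ?_ Fintype.card_pos
  calc _ = Fintype.card F ^ 9 := by ring
    _ ≤ 4 * (#(SLs F) * Fintype.card F) := h2.trans (Nat.mul_le_mul_left _ h1)
    _ = _ := by ring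

lemma fib_GLs (Z₀ Z : Matrix (Fin 3) (Fin 3) F) :
    #{g ∈ GLs F | g * Z₀ = Z} * Fintype.card F ^ 9 ≤ 4 * #(GLs F) * ∏ i, rowc Z₀ (Z i) := by
  rw [mul_comm]
  refine Nat.mul_le_mul card_GLs (le_trans (card_le_card fun g hg => ?_) (card_fib Z₀ Z))
  exact mem_filter.2 ⟨mem_univ _, (mem_filter.1 hg).2⟩

lemma fib_SLs {Z₀ : Matrix (Fin 3) (Fin 3) F} (h : Z₀.det = 0) (Z : Matrix (Fin 3) (Fin 3) F) :
    #{g ∈ SLs F | g * Z₀ = Z} * Fintype.card F ^ 9 ≤ 8 * #(SLs F) * ∏ i, rowc Z₀ (Z i) := by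
  obtain ⟨w, hw0, hw⟩ := exists_vecMul_eq_zero_iff.2 h
  obtain ⟨i, hi⟩ := Function.ne_iff.1 hw0
  set v : Fin 3 → F := Pi.single i (w i)⁻¹ with hv
  have hwv : w ⬝ᵥ v = 1 := by rw [hv, dotProduct_single]; exact mul_inv_cancel₀ hi
  have hdet : ∀ c : F, (1 + vecMulVec ((c - 1) • v) w).det = c := fun c => by
    rw [vecMulVec_eq Unit, det_one_add_replicateCol_mul_replicateRow, dotProduct_smul, hwv]
    simp
  have h1 : #((univ.erase (0 : F)) ×ˢ {g ∈ SLs F | g * Z₀ = Z}) ≤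
      #{g : Matrix (Fin 3) (Fin 3) F | g * Z₀ = Z} := by
    refine card_le_card_of_injOn (fun p => p.2 * (1 + vecMulVec ((p.1 - 1) • v) w))
      (fun p hp => ?_) (fun p hp p' hp' e => ?_)
    · have := (mem_filter.1 (mem_product.1 (mem_coe.1 hp)).2).2
      simp only [mem_coe, mem_filter, mem_univ, true_and]
      rw [Matrix.mul_assoc, Matrix.add_mul, vecMulVec_mul, hw, vecMulVec_zero, add_zero,
        Matrix.one_mul, this]
    · obtain ⟨a1, a2⟩ := mem_product.1 (mem_coe.1 hp)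
      obtain ⟨b1, b2⟩ := mem_product.1 (mem_coe.1 hp')
      have d1 : p.2.det = 1 := (mem_filter.1 (mem_filter.1 a2).1).2
      have d2 : p'.2.det = 1 := (mem_filter.1 (mem_filter.1 b2).1).2
      have e1 := congrArg det e
      simp only [det_mul, hdet, d1, d2, one_mul] at e1
      simp only [← e1] at e
      have hu : IsUnit (1 + vecMulVec ((p.1 - 1) • v) w) :=
        (isUnit_iff_isUnit_det _).2 (isUnit_iff_ne_zero.2 (by
          rw [hdet]; exact (mem_erase.1 a1).1))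
      exact Prod.ext e1 (hu.mul_left_inj.1 e)
  rw [card_product, card_erase_of_mem (mem_univ _), card_univ] at h1
  have h2 := h1.trans (card_fib Z₀ Z)
  have h3 := card_SLs (F := F)
  have h4 : Fintype.card F ≤ 2 * (Fintype.card F - 1) := by
    have := Fintype.one_lt_card (α := F); omega
  calc _ = Fintype.card F ^ 8 * (Fintype.card F * #{g ∈ SLs F | g * Z₀ = Z}) := by ring
    _ ≤ 4 * #(SLs F) * (2 * (Fintype.card F - 1) * #{g ∈ SLs F | g * Z₀ = Z}) := by gcongr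
    _ = 8 * #(SLs F) * ((Fintype.card F - 1) * #{g ∈ SLs F | g * Z₀ = Z}) := by ring
    _ ≤ _ := by gcongr

lemma rowc_le_of_minor {Z₀ : Matrix (Fin 3) (Fin 3) F} {a b c d : Fin 3}
    (h : Z₀ a c * Z₀ b d ≠ Z₀ b c * Z₀ a d) (ρ : Fin 3 → F) : rowc Z₀ ρ ≤ Fintype.card F := by
  have hw : Z₀ᵀ c ⨯₃ Z₀ᵀ d ≠ 0 := fun h0 => h (cross_eq_zero h0 a b)
  obtain ⟨i, hi⟩ := Function.ne_iff.1 hw
  rw [rowc, ← card_univ]
  refine card_le_card_of_injOn (fun γ => γ i) (fun _ _ => mem_coe.2 (mem_univ _))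
    (fun γ hγ γ' hγ' e => ?_)
  have h1 : (γ - γ') ᵥ* Z₀ = 0 := by
    rw [sub_vecMul, (mem_filter.1 (mem_coe.1 hγ)).2, (mem_filter.1 (mem_coe.1 hγ')).2, sub_self]
  have h2 : ∀ c, Z₀ᵀ c ⬝ᵥ (γ - γ') = 0 := fun c => by
    rw [dotProduct_comm]; exact congrFun h1 c
  have h3 : (Z₀ᵀ c ⨯₃ Z₀ᵀ d) ⨯₃ (γ - γ') = 0 := by
    rw [cross_cross_eq_smul_sub_smul, h2, h2]; simp
  funext x
  have h4 := cross_eq_zero h3 i x
  simp only at e
  rw [Pi.sub_apply γ γ' i, e, sub_self, mul_zero] at h4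
  exact sub_eq_zero.1 ((mul_eq_zero.1 h4).resolve_left hi)

lemma rowc_le_sq {Z₀ : Matrix (Fin 3) (Fin 3) F} {a c : Fin 3} (h : Z₀ a c ≠ 0) (ρ : Fin 3 → F) :
    rowc Z₀ ρ ≤ Fintype.card F * Fintype.card F := by
  have e : Fintype.card F * Fintype.card F = #(univ : Finset (Fin 2 → F)) := by simp [sq]
  rw [rowc, e]
  refine card_le_card_of_injOn (fun γ j => γ (a.succAbove j)) (fun _ _ => mem_coe.2 (mem_univ _))
    (fun γ hγ γ' hγ' e => ?_)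
  have h1 : (γ ᵥ* Z₀) c = (γ' ᵥ* Z₀) c := by
    rw [(mem_filter.1 (mem_coe.1 hγ)).2, (mem_filter.1 (mem_coe.1 hγ')).2]
  have e' : ∀ j, γ (a.succAbove j) = γ' (a.succAbove j) := congrFun e
  simp only [vecMul, dotProduct, Fin.sum_univ_succAbove _ a, e', add_left_inj] at h1
  funext x
  exact Fin.succAboveCases a (mul_right_cancel₀ h h1) e' x

omit [Fintype F] [DecidableEq F] in
lemma cross_zero_of_minor {Z₀ : Matrix (Fin 3) (Fin 3) F}
    (h : ∀ a b c d, Z₀ a c * Z₀ b d = Z₀ b c * Z₀ a d) (γ γ' : Fin 3 → F) :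
    (γ ᵥ* Z₀) ⨯₃ (γ' ᵥ* Z₀) = 0 := by
  have h1 : ∀ c d, (γ ᵥ* Z₀) c * (γ' ᵥ* Z₀) d - (γ ᵥ* Z₀) d * (γ' ᵥ* Z₀) c = 0 := fun c d => by
    simp only [vecMul, dotProduct, sum_mul_sum, ← sum_sub_distrib]
    exact sum_eq_zero fun a _ => sum_eq_zero fun b _ => by
      linear_combination γ a * γ' b * h a b c d
  rw [cross_apply, h1, h1, h1]
  funext i; fin_cases i <;> rfl

lemma rank_dichotomy {Z₀ : Matrix (Fin 3) (Fin 3) F} {a c : Fin 3} (h : Z₀ a c ≠ 0) :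
    ∃ j : ℕ, (∀ ρ, rowc Z₀ ρ ≤ Fintype.card F * j) ∧
      (j = 1 ∨ j = Fintype.card F ∧ ∀ γ γ' : Fin 3 → F, (γ ᵥ* Z₀) ⨯₃ (γ' ᵥ* Z₀) = 0) := by
  by_cases h1 : ∀ a b c d, Z₀ a c * Z₀ b d = Z₀ b c * Z₀ a d
  · exact ⟨_, rowc_le_sq h, Or.inr ⟨rfl, cross_zero_of_minor h1⟩⟩
  · push Not at h1
    obtain ⟨a, b, c, d, h1⟩ := h1
    exact ⟨1, fun ρ => by rw [mul_one]; exact rowc_le_of_minor h1 ρ, Or.inl rfl⟩

end Crest.Agent.R32
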