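import Crest.Agent.R32.Total
import Crest.Agent.R32.Delete

/-! Row 32: sampling integer points with all determinants large. -/

set_option autoImplicit false

namespace Crest.Agent.R32

open Finset Matrix

lemma exists_lift (M r : ℕ) [NeZero M] [NeZero r] (h : M.Coprime r) :
    ∃ w : ZMod M → ZMod r → ℕ, ∀ α γ, w α γ < M * r ∧ (w α γ : ZMod M) = α ∧
      (w α γ : ZMod r) = γ := by
  refine ⟨fun α γ => Nat.chineseRemainder h α.val γ.val, fun α γ =>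
    ⟨Nat.chineseRemainder_lt_mul h _ _ (NeZero.ne M) (NeZero.ne r), ?_, ?_⟩⟩
  · rw [(ZMod.natCast_eq_natCast_iff _ _ _).2 (Nat.chineseRemainder h α.val γ.val).2.1,
      ZMod.natCast_zmod_val]
  · rw [(ZMod.natCast_eq_natCast_iff _ _ _).2 (Nat.chineseRemainder h α.val γ.val).2.2,
      ZMod.natCast_zmod_val]

lemma exists_pt (M r L : ℕ) [NeZero M] [NeZero r] (h : M.Coprime r) :
    ∃ pt : (Fin 3 → ZMod M) → (Fin 3 → ZMod r) → (Fin 3 → Fin L) → Fin 3 → ℤ,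
      (∀ α γ ξ, red M (pt α γ ξ) = α ∧ red r (pt α γ ξ) = γ ∧ (∀ i, 0 ≤ pt α γ ξ i) ∧
        pt α γ ξ 0 < (M * r * L : ℕ) ∧ pt α γ ξ 1 < (M * r * L : ℕ) ∧
        (M * r * L : ℕ) ≤ pt α γ ξ 2 ∧ pt α γ ξ 2 < (2 * (M * r * L) : ℕ)) ∧
      ∀ α γ, Function.Injective (pt α γ) := by
  obtain ⟨w, hw⟩ := exists_lift M r h
  have hm : 0 < M * r := Nat.mul_pos (NeZero.pos M) (NeZero.pos r)
  have hlt : ∀ α γ (ξ : Fin L), w α γ + M * r * ξ < M * r * L := fun α γ ξ => by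
    have h1 := (hw α γ).1
    have h2 : M * r * (ξ + 1) ≤ M * r * L := Nat.mul_le_mul_left _ ξ.2
    rw [mul_add, mul_one] at h2
    omega
  refine ⟨fun α γ ξ i => (w (α i) (γ i) + M * r * (ξ i + ![0, 0, L] i) : ℕ), fun α γ ξ =>
    ⟨funext fun i => ?_, funext fun i => ?_, fun i => Int.natCast_nonneg _, ?_, ?_, ?_, ?_⟩,
    fun α γ ξ ξ' e => funext fun i => Fin.ext ?_⟩
  · simp [red, (hw _ _).2.1]
  · simp [red, (hw _ _).2.2]
  · exact Int.ofNat_lt.2 (hlt _ _ _)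
  · exact Int.ofNat_lt.2 (hlt _ _ _)
  · have : M * r * L ≤ w (α 2) (γ 2) + M * r * (ξ 2 + L) := by rw [mul_add]; omega
    exact Int.ofNat_le.2 this
  · have : w (α 2) (γ 2) + M * r * (ξ 2 + L) < 2 * (M * r * L) := by
      have := hlt (α 2) (γ 2) (ξ 2); rw [mul_add]; omega
    exact Int.ofNat_lt.2 this
  · have := congrFun e i
    simp only [Nat.cast_inj, add_right_inj] at this
    exact add_right_cancel (Nat.eq_of_mul_eq_mul_left hm this)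

open Classical in
theorem sample {X : Type*} [Fintype X] [Nonempty X] (M r q H L b S n : ℕ) [Fact M.Prime]
    [Fact r.Prime] (s : X → Fin 3 → ZMod M) (β : ZMod r) (hβ : ¬ IsSquare β) (hH : 0 < H)
    (hq0 : 0 < q) (hq : q ≤ M) (hr : M ^ 3 ≤ r)
    (h1 : q * #{x : Fin 3 → X | ∃ t : ℤ, 2 * H * |t| < M ∧ (cols s x).det = t} ≤
      3 * Fintype.card X ^ 3)
    (h2 : q * ∑ κ, zc s κ ≤ 6 * M * Fintype.card X ^ 3)
    (h3 : ∀ x κ, cols s x *ᵥ κ = 0 → ∑ j, κ j = 0 ∨ ∃ j, κ j = 0) (h4 : ∀ x, ∃ i, s x i ≠ 0)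
    (hb : 1 ≤ b) (hL : 0 < L) (hS : 2 * (2 * (M * r * L)) ^ 2 < b ^ S)
    (hN3 : 10 ^ 12 * (n ^ 2 * S * b ^ 3 * M) ≤ q * (M * r * L) ^ 3)
    (hN2 : 8 * n * (M * r) ≤ L ^ 2) :
    ∃ u : Fin n → Fin 3 → ℤ, (∀ i, 0 ≤ u i 0 ∧ u i 0 ≤ u i 2 ∧ 0 ≤ u i 1 ∧ u i 1 ≤ u i 2 ∧
      0 < u i 2 ∧ u i 2 ≤ (2 * (M * r * L) : ℕ)) ∧ (∀ i j, i ≠ j → u i ⨯₃ u j ≠ 0) ∧
      ∀ ι : Fin 3 → Fin n, Function.Injective ι → (M : ℤ) ≤ 2 * H * |(cols u ι).det| := by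
  have hM1 : 1 < M := (Fact.out : M.Prime).one_lt
  have hr0 : 0 < r := (Fact.out : r.Prime).pos
  have hMr : M < r := by
    have : M ^ 1 < M ^ 3 := Nat.pow_lt_pow_right hM1 (by norm_num)
    rw [pow_one] at this; omega
  obtain ⟨pt, hpt, hinj⟩ := exists_pt M r L ((Nat.coprime_primes Fact.out Fact.out).2 hMr.ne)
  have : Nonempty (Fin L) := ⟨⟨0, hL⟩⟩
  obtain ⟨N, hN⟩ : ∃ N, N = M * r * L := ⟨_, rfl⟩
  have hN0 : 0 < N := by rw [hN]; positivity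
  rw [← hN] at hS hN3 hpt ⊢
  set P : Matrix (Fin 3) (Fin 3) (ZMod M) × Matrix (Fin 3) (Fin 3) (ZMod r) →
      X × (ZMod r × ZMod r) × (Fin 3 → Fin L) → Fin 3 → ℤ :=
    fun g ω => pt (g.1 *ᵥ s ω.1) (g.2 *ᵥ cap β ω.2.1) ω.2.2 with hP
  set B₃ := fun g => ({ω : Fin 3 → X × (ZMod r × ZMod r) × (Fin 3 → Fin L) |
    cols (P g) ω ∈ bad (2 * N) H M} : Finset _) with hB₃
  have hPinj : ∀ g ω ω', ω.1 = ω'.1 → ω.2.1 = ω'.2.1 → P g ω = P g ω' → ω = ω' :=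
    fun g ω ω' e1 e2 e => by
      simp only [hP, ← e1, ← e2] at e
      exact Prod.ext e1 (Prod.ext e2 (hinj _ _ e))
  have c1 : ∀ g, #(B₃ g) ≤ ∑ x, ∑ τ, ∑ Z ∈ bad (2 * N) H M,
      (if g.1 * cols s x = Z.map (Int.castRingHom (ZMod M)) then 1 else 0) *
        (if g.2 * cols (cap β) τ = Z.map (Int.castRingHom (ZMod r)) then 1 else 0) := fun g => by
    simp only [ite_zero_mul_ite_zero, mul_one]
    simp only [← sum_product']
    rw [← card_filter]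
    refine card_le_card_of_injOn (fun ω => (fun j => (ω j).1, fun j => (ω j).2.1, cols (P g) ω))
      (fun ω hω => mem_coe.2 (mem_filter.2 ⟨mem_product.2 ⟨mem_univ _, mem_product.2
        ⟨mem_univ _, (mem_filter.1 (mem_coe.1 hω)).2⟩⟩, ?_, ?_⟩)) (fun ω _ ω' _ e => ?_)
    · ext i j
      exact (congrFun (hpt (g.1 *ᵥ s (ω j).1) (g.2 *ᵥ cap β (ω j).2.1) (ω j).2.2).1 i).symm
    · ext i j
      exact (congrFun (hpt (g.1 *ᵥ s (ω j).1) (g.2 *ᵥ cap β (ω j).2.1) (ω j).2.2).2.1 i).symm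
    · simp only [Prod.mk.injEq] at e
      exact funext fun j => hPinj g _ _ (congrFun e.1 j) (congrFun e.2.1 j)
        (funext fun i => congrFun (congrFun e.2.2 i) j)
  obtain ⟨W, hW⟩ : ∃ W, W = ∑ x, ∑ τ, ∑ Z ∈ bad (2 * N) H M,
    nf (SLs (ZMod M)) (cols s x) Z * nf (GLs (ZMod r)) (cols (cap β) τ) Z := ⟨_, rfl⟩
  have c2 : ∑ g ∈ SLs (ZMod M) ×ˢ GLs (ZMod r), #(B₃ g) ≤ W := by
    refine (sum_le_sum fun g _ => c1 g).trans (le_of_eq ?_)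
    rw [hW, sum_comm]
    refine sum_congr rfl fun x _ => ?_
    rw [sum_comm]
    refine sum_congr rfl fun τ _ => ?_
    rw [sum_comm]
    refine sum_congr rfl fun Z _ => ?_
    simp only [nf, card_filter, sum_mul_sum, sum_product]
  have hne : (SLs (ZMod M) ×ˢ GLs (ZMod r)).Nonempty :=
    ⟨(1, 1), by simp [SLs, GLs]⟩
  obtain ⟨g, -, hg⟩ := exists_le_of_sum_le (f := fun g => #(SLs (ZMod M) ×ˢ GLs (ZMod r)) * #(B₃ g))
    (g := fun _ => W) hne (by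
      rw [← mul_sum, sum_const, smul_eq_mul]; exact Nat.mul_le_mul_left _ c2)
  have c3 : (q * M ^ 8 * r ^ 9 : ℝ) * W ≤ (48 * 27 * 18 ^ 3 + 32 * 3402 * 18 ^ 3) *
      (S * b ^ 3 * (2 * N : ℕ) ^ 6 * #(SLs (ZMod M)) * #(GLs (ZMod r)) *
        Fintype.card X ^ 3 * r ^ 6) := by
    have p1 := part_one M r q H (2 * N) b S s β hH hMr.le h1 hb hS
    have p2 := part_two M r q H (2 * N) b S s β hβ hq hr h2 h3 h4 hb hS
    have e : W = (∑ x, ∑ τ, ∑ Z ∈ bad (2 * N) H M with Z.det ≠ 0,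
        nf (SLs (ZMod M)) (cols s x) Z * nf (GLs (ZMod r)) (cols (cap β) τ) Z) +
        ∑ x, ∑ τ, ∑ Z ∈ bad (2 * N) H M with Z.det = 0,
        nf (SLs (ZMod M)) (cols s x) Z * nf (GLs (ZMod r)) (cols (cap β) τ) Z := by
      simp only [hW, ← sum_add_distrib, sum_filter_not_add_sum_filter]
    rw [e, Nat.cast_add, mul_add, add_mul]
    exact add_le_add p1 p2
  have c4 : 16 * n ^ 2 * #(B₃ g) ≤
      Fintype.card (X × (ZMod r × ZMod r) × (Fin 3 → Fin L)) ^ 3 := by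
    have d1 : q * M ^ 8 * r ^ 9 * W ≤ (48 * 27 * 18 ^ 3 + 32 * 3402 * 18 ^ 3) *
      (S * b ^ 3 * (2 * N) ^ 6 * #(SLs (ZMod M)) * #(GLs (ZMod r)) *
        Fintype.card X ^ 3 * r ^ 6) := by exact_mod_cast c3
    have d0 := card_pos.2 hne
    rw [card_product] at hg d0
    simp only [Fintype.card_prod, ZMod.card, Fintype.card_fun, Fintype.card_fin]
    generalize #(SLs (ZMod M)) = G₁ at *
    generalize #(GLs (ZMod r)) = G₂ at *
    generalize #(B₃ g) = y at *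
    generalize Fintype.card X = x at *
    refine Nat.le_of_mul_le_mul_left (c := q * M ^ 9 * r ^ 9 * (G₁ * G₂)) ?_ (by positivity)
    calc _ = 16 * n ^ 2 * M * (q * M ^ 8 * r ^ 9 * (G₁ * G₂ * y)) := by ring
      _ ≤ 16 * n ^ 2 * M * (q * M ^ 8 * r ^ 9 * W) := by gcongr
      _ ≤ 16 * n ^ 2 * M * ((48 * 27 * 18 ^ 3 + 32 * 3402 * 18 ^ 3) *
          (S * b ^ 3 * (2 * N) ^ 6 * G₁ * G₂ * x ^ 3 * r ^ 6)) := Nat.mul_le_mul_left _ d1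
      _ = 657871994880 * (n ^ 2 * S * b ^ 3 * M) * (N ^ 6 * G₁ * G₂ * x ^ 3 * r ^ 6) := by ring
      _ ≤ 10 ^ 12 * (n ^ 2 * S * b ^ 3 * M) * (N ^ 6 * G₁ * G₂ * x ^ 3 * r ^ 6) := by
          gcongr; norm_num
      _ ≤ q * N ^ 3 * (N ^ 6 * G₁ * G₂ * x ^ 3 * r ^ 6) := Nat.mul_le_mul_right _ hN3
      _ = _ := by rw [hN]; ring
  have hP2 : ∀ ω, (N : ℤ) ≤ P g ω 2 ∧ P g ω 2 < (2 * N : ℕ) := fun ω => (hpt _ _ _).2.2.2.2.2
  have c5 : 8 * n * #{ω : Fin 2 → X × (ZMod r × ZMod r) × (Fin 3 → Fin L) |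
      P g (ω 0) ⨯₃ P g (ω 1) = 0} ≤
      Fintype.card (X × (ZMod r × ZMod r) × (Fin 3 → Fin L)) ^ 2 := by
    have d1 : #{ω : Fin 2 → X × (ZMod r × ZMod r) × (Fin 3 → Fin L) |
        P g (ω 0) ⨯₃ P g (ω 1) = 0} ≤ #((univ : Finset ((X × (ZMod r × ZMod r) ×
          (Fin 3 → Fin L)) × X × (ZMod r × ZMod r))) ×ˢ Ico (N : ℤ) (2 * N : ℕ)) := by
      refine card_le_card_of_injOn (fun ω => ((ω 0, (ω 1).1, (ω 1).2.1), P g (ω 1) 2))
        (fun ω _ => mem_coe.2 (mem_product.2 ⟨mem_univ _, mem_Ico.2 (hP2 _)⟩))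
        (fun ω hω ω' hω' e => ?_)
      simp only [Prod.mk.injEq] at e
      obtain ⟨⟨e0, e1, e2⟩, e3⟩ := e
      have a1 := cross_eq_zero (mem_filter.1 (mem_coe.1 hω)).2 2
      have a2 := cross_eq_zero (mem_filter.1 (mem_coe.1 hω')).2 2
      have a3 : P g (ω 0) 2 ≠ 0 := by have := (hP2 (ω 0)).1; omega
      have a4 : ω 1 = ω' 1 := hPinj g _ _ e1 e2 (funext fun a => mul_left_cancel₀ a3 (by
        rw [a1, e3, e0, a2]))
      funext j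
      fin_cases j
      exacts [e0, a4]
    rw [card_product, card_univ, Int.card_Ico] at d1
    have e : (((2 * N : ℕ) : ℤ) - N).toNat = N := by omega
    rw [e] at d1
    refine (Nat.mul_le_mul_left _ d1).trans ?_
    simp only [Fintype.card_prod, ZMod.card, Fintype.card_fun, Fintype.card_fin]
    calc _ = 8 * n * (M * r) * (Fintype.card X ^ 2 * r ^ 4 * L ^ 4) := by rw [hN]; ring
      _ ≤ L ^ 2 * (Fintype.card X ^ 2 * r ^ 4 * L ^ 4) := Nat.mul_le_mul_right _ hN2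
      _ = _ := by ring
  obtain ⟨f, hf3, hf2⟩ := deletion n (B₃ g) _ c4 c5
  have hpar : ∀ i j, i ≠ j → P g (f i) ⨯₃ P g (f j) ≠ 0 := fun i j hij h =>
    hf2 ![i, j] (fun a b hab => by
      fin_cases a <;> fin_cases b <;> first | rfl | exact absurd hab hij | exact absurd hab hij.symm)
      (mem_filter.2 ⟨mem_univ _, h⟩)
  have hbox : ∀ ω, 0 ≤ P g ω 0 ∧ P g ω 0 ≤ P g ω 2 ∧ 0 ≤ P g ω 1 ∧ P g ω 1 ≤ P g ω 2 ∧
      0 < P g ω 2 ∧ P g ω 2 ≤ (2 * N : ℕ) := fun ω => by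
    obtain ⟨-, -, a0, a1, a2, a3, a4⟩ := hpt (g.1 *ᵥ s ω.1) (g.2 *ᵥ cap β ω.2.1) ω.2.2
    exact ⟨a0 0, a1.le.trans a3, a0 1, a2.le.trans a3,
      lt_of_lt_of_le (by exact_mod_cast hN0) a3, a4.le⟩
  refine ⟨fun i => P g (f i), fun i => hbox _, hpar, fun ι hι => ?_⟩
  by_contra hcon
  refine hf3 ι hι (mem_filter.2 ⟨mem_univ _, mem_filter.2 ⟨mem_mats.2 fun i j => ?_,
    not_le.1 hcon, fun i j hij => hpar _ _ (hι.ne hij)⟩⟩)
  obtain ⟨a0, a1, a2, a3, a4, a5⟩ := hbox (f (ι j))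
  fin_cases i
  exacts [⟨a0, a1.trans a5⟩, ⟨a2, a3.trans a5⟩, ⟨a4.le, a5⟩]

end Crest.Agent.R32
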