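import Crest.Agent.R32.Cap

/-! Row 32: properties of the labelled vectors modulo `M`. -/

set_option autoImplicit false

namespace Crest.Agent.R32

open Finset Matrix

variable {Q : Type*} [Fintype Q] [DecidableEq Q]

/-- the labelled vectors -/
def sv (M Φ : ℕ) (a b c : Q → ℤ) (x : Q × Fin Φ) : Fin 3 → ZMod M :=
  ![(a x.1 : ZMod M), (b x.1 : ZMod M), ((c x.1 + (x.2 : ℕ) : ℤ) : ZMod M)]

lemma card_same_label {Y : Type*} [Fintype Y] [DecidableEq Y] {i j : Fin 3} (hij : i ≠ j) :
    Fintype.card Q * #{x : Fin 3 → Q × Y | (x i).1 = (x j).1} ≤ Fintype.card (Q × Y) ^ 3 := by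
  have e : Fintype.card (Q × Y) ^ 3 = #(univ : Finset (Fin 3 → Q × Y)) := by simp
  rw [e, ← card_univ, ← card_product]
  refine card_le_card_of_injOn (fun p => Function.update p.2 i (p.1, (p.2 i).2))
    (fun _ _ => mem_coe.2 (mem_univ _)) (fun p hp p' hp' e => ?_)
  have a1 := (mem_filter.1 (mem_product.1 (mem_coe.1 hp)).2).2
  have a2 := (mem_filter.1 (mem_product.1 (mem_coe.1 hp')).2).2
  have e1 := congrFun e i
  simp only [Function.update_self, Prod.mk.injEq] at e1
  have e2 : ∀ l, l ≠ i → p.2 l = p'.2 l := fun l hl => by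
    have := congrFun e l
    simpa only [Function.update_of_ne hl] using this
  refine Prod.ext e1.1 (funext fun l => ?_)
  by_cases hl : l = i
  · subst hl
    exact Prod.ext (by rw [a1, a2, e2 j hij.symm]) e1.2
  · exact e2 l hl

omit [Fintype Q] [DecidableEq Q] in
lemma not_inj_cases {l : Fin 3 → Q} (h : ¬ Function.Injective l) :
    l 0 = l 1 ∨ l 0 = l 2 ∨ l 1 = l 2 := by
  by_contra hcon
  push Not at hcon
  obtain ⟨h1, h2, h3⟩ := hcon
  apply h
  intro i j hij
  fin_cases i <;> fin_cases j <;>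
    first | rfl | exact absurd hij h1 | exact absurd hij h2 | exact absurd hij h3 |
      exact absurd hij.symm h1 | exact absurd hij.symm h2 | exact absurd hij.symm h3

lemma card_not_inj {Y : Type*} [Fintype Y] [DecidableEq Y] :
    Fintype.card Q * #{x : Fin 3 → Q × Y | ¬ Function.Injective fun j => (x j).1} ≤
      3 * Fintype.card (Q × Y) ^ 3 := by
  have h : #{x : Fin 3 → Q × Y | ¬ Function.Injective fun j => (x j).1} ≤
      #{x : Fin 3 → Q × Y | (x 0).1 = (x 1).1} + (#{x : Fin 3 → Q × Y | (x 0).1 = (x 2).1} +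
        #{x : Fin 3 → Q × Y | (x 1).1 = (x 2).1}) := by
    refine le_trans (card_le_card fun x hx => ?_)
      ((card_union_le _ _).trans (Nat.add_le_add_left (card_union_le _ _) _))
    simpa using not_inj_cases (mem_filter.1 hx).2
  have h1 := card_same_label (Q := Q) (Y := Y) (i := 0) (j := 1) (by decide)
  have h2 := card_same_label (Q := Q) (Y := Y) (i := 0) (j := 2) (by decide)
  have h3 := card_same_label (Q := Q) (Y := Y) (i := 1) (j := 2) (by decide)
  have := Nat.mul_le_mul_left (Fintype.card Q) h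
  rw [mul_add, mul_add] at this
  omega

open Classical in
theorem side (M Φ H : ℕ) [Fact M.Prime] (a b c : Q → ℤ) (hq : Fintype.card Q ≤ M)
    (hΦ : Φ ≤ M) (hM : M ≤ 2 * Φ ^ 2)
    (ha : ∀ x, (a x : ZMod M) ≠ 0)
    (hab : ∀ x z, x ≠ z → ((a x * b z - a z * b x : ℤ) : ZMod M) ≠ 0)
    (hd : ∀ x : Fin 3 → Q, Function.Injective x → ∀ φ : Fin 3 → ℤ,
      (∀ j, 0 ≤ φ j ∧ φ j ≤ Φ) → ∀ t : ℤ, 2 * H * |t| < M →
        ¬ (M : ℤ) ∣ d3 (fun j => a (x j)) (fun j => b (x j)) (fun j => c (x j) + φ j) - t) :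
    Fintype.card Q * #{x : Fin 3 → Q × Fin Φ | ∃ t : ℤ, 2 * H * |t| < M ∧
        (cols (sv M Φ a b c) x).det = t} ≤ 3 * Fintype.card (Q × Fin Φ) ^ 3 ∧
      Fintype.card Q * ∑ κ, zc (sv M Φ a b c) κ ≤ 6 * M * Fintype.card (Q × Fin Φ) ^ 3 ∧
      (∀ x κ, cols (sv M Φ a b c) x *ᵥ κ = 0 → ∑ j, κ j = 0 ∨ ∃ j, κ j = 0) ∧
      ∀ x, ∃ i, sv M Φ a b c x i ≠ 0 := by
  have hM0 : 0 < M := (Fact.out : M.Prime).pos
  have hdet : ∀ x : Fin 3 → Q × Fin Φ, Function.Injective (fun j => (x j).1) → ∀ t : ℤ,
      2 * H * |t| < M → (cols (sv M Φ a b c) x).det ≠ t := fun x hx t ht h => by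
    refine hd _ hx (fun j => ((x j).2 : ℕ)) (fun j => ⟨Int.natCast_nonneg _, ?_⟩) t ht ?_
    · exact_mod_cast (x j).2.2.le
    · rw [← ZMod.intCast_zmod_eq_zero_iff_dvd, Int.cast_sub, ← h, det_eq_d3, sub_eq_zero]
      simp [d3, cols, sv]
  have hker : ∀ x : Fin 3 → Q × Fin Φ, Function.Injective (fun j => (x j).1) → ∀ κ,
      cols (sv M Φ a b c) x *ᵥ κ = 0 → κ = 0 := fun x hx κ hκ =>
    eq_zero_of_mulVec_eq_zero (by simpa using hdet x hx 0 (by simpa using hM0)) hκ
  refine ⟨le_trans (Nat.mul_le_mul_left _ (card_le_card fun x hx => ?_)) card_not_inj, ?_,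
    fun x κ hκ => ?_, fun x => ⟨0, ha x.1⟩⟩
  · obtain ⟨t, ht, h⟩ := (mem_filter.1 hx).2
    exact mem_filter.2 ⟨mem_univ _, fun hi => hdet x hi t ht h⟩
  · have e : ∑ κ, zc (sv M Φ a b c) κ = ∑ x, rowc (cols (sv M Φ a b c) x)ᵀ 0 := by
      simp only [zc, rowc, card_filter, vecMul_transpose]
      exact sum_comm
    have hb : ∀ x : Fin 3 → Q × Fin Φ, rowc (cols (sv M Φ a b c) x)ᵀ 0 ≤ 1 +
        (if ¬ Function.Injective fun j => (x j).1 then 1 else 0) * M +
        (if ∀ j, x j = x 0 then 1 else 0) * (M * M) := fun x => by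
      by_cases hi : Function.Injective fun j => (x j).1
      · have : rowc (cols (sv M Φ a b c) x)ᵀ 0 ≤ 1 := card_le_one.2 fun κ hκ κ' hκ' => by
          have h1 := (mem_filter.1 hκ).2
          have h2 := (mem_filter.1 hκ').2
          rw [vecMul_transpose] at h1 h2
          rw [hker x hi κ h1, hker x hi κ' h2]
        omega
      by_cases hc : ∀ j, x j = x 0
      · have := rowc_le_sq (Z₀ := (cols (sv M Φ a b c) x)ᵀ) (a := 0) (c := 0) (ha _) 0
        rw [ZMod.card] at this
        rw [if_pos hc]; omega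
      · push Not at hc
        obtain ⟨j, hj⟩ := hc
        have : rowc (cols (sv M Φ a b c) x)ᵀ 0 ≤ M := by
          conv_rhs => rw [← ZMod.card M]
          by_cases hl : (x j).1 = (x 0).1
          · refine rowc_le_of_minor (a := j) (b := 0) (c := 0) (d := 2) (fun h => hj ?_) 0
            simp only [cols, sv, transpose_apply, of_apply, cons_val_zero, Matrix.cons_val, hl,
              Int.cast_add, Int.cast_natCast] at h
            have h2 := add_left_cancel (mul_left_cancel₀ (ha _) h)
            rw [ZMod.natCast_eq_natCast_iff', Nat.mod_eq_of_lt (by omega),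
              Nat.mod_eq_of_lt (by omega)] at h2
            exact Prod.ext hl (Fin.ext h2.symm)
          · refine rowc_le_of_minor (a := j) (b := 0) (c := 0) (d := 1) (fun h => ?_) 0
            apply hab _ _ hl
            simp only [cols, sv, transpose_apply, of_apply, cons_val_zero, cons_val_one] at h
            push_cast
            rw [h, sub_self]
        rw [if_pos hi]; omega
    have hconst : #{x : Fin 3 → Q × Fin Φ | ∀ j, x j = x 0} ≤ Fintype.card (Q × Fin Φ) := by
      rw [← card_univ]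
      refine card_le_card_of_injOn (fun x => x 0) (fun _ _ => mem_coe.2 (mem_univ _))
        (fun x hx x' hx' e => funext fun j => ?_)
      rw [(mem_filter.1 (mem_coe.1 hx)).2 j, (mem_filter.1 (mem_coe.1 hx')).2 j]
      exact e
    have h1 := sum_le_sum fun x (_ : x ∈ univ) => hb x
    rw [← e, sum_add_distrib, sum_add_distrib, ← sum_mul, ← sum_mul, ← card_filter, ← card_filter,
      sum_const, card_univ, Fintype.card_fun, Fintype.card_fin, smul_eq_mul, mul_one] at h1
    have h2 := card_not_inj (Q := Q) (Y := Fin Φ)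
    have h3 : Fintype.card Q * M ≤ 2 * Fintype.card (Q × Fin Φ) ^ 2 := by
      rw [Fintype.card_prod, Fintype.card_fin, mul_pow]
      calc _ ≤ Fintype.card Q ^ 2 * (2 * Φ ^ 2) :=
            Nat.mul_le_mul (Nat.le_self_pow (by norm_num) _) hM
        _ = _ := by ring
    generalize Fintype.card (Q × Fin Φ) = n at *
    generalize #{x : Fin 3 → Q × Fin Φ | ¬ Function.Injective fun j => (x j).1} = u at *
    generalize #{x : Fin 3 → Q × Fin Φ | ∀ j, x j = x 0} = v at *
    generalize Fintype.card Q = q at *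
    calc _ ≤ q * (n ^ 3 + u * M + v * (M * M)) := Nat.mul_le_mul_left _ h1
      _ = q * n ^ 3 + M * (q * u) + M * v * (q * M) := by ring
      _ ≤ M * n ^ 3 + M * (3 * n ^ 3) + M * n * (2 * n ^ 2) := by gcongr
      _ = _ := by ring
  · by_contra hcon
    push Not at hcon
    obtain ⟨hs, hκ0⟩ := hcon
    have h0 := cols_mulVec hκ 0
    have h1 := cols_mulVec hκ 1
    simp only [Fin.sum_univ_three, sv, cons_val_zero, cons_val_one] at h0 h1 hs
    have key : ∀ (l l' : Q) (u v : ZMod M), v ≠ 0 → u + v ≠ 0 → a l * u + a l' * v = 0 →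
        b l * u + b l' * v = 0 → False := fun l l' u v hv huv e1 e2 => by
      by_cases hl : l = l'
      · subst hl
        exact mul_ne_zero (ha l) huv (by linear_combination e1)
      · refine mul_ne_zero (hab l l' hl) hv ?_
        push_cast
        linear_combination a l * e2 - b l * e1
    rcases not_inj_cases (fun hi => hκ0 0 (by rw [hker x hi κ hκ]; rfl)) with h | h | h
    · rw [← h] at h0 h1
      exact key (x 0).1 (x 2).1 (κ 0 + κ 1) (κ 2) (hκ0 2) hs (by linear_combination h0)
        (by linear_combination h1)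
    · rw [← h] at h0 h1
      exact key (x 0).1 (x 1).1 (κ 0 + κ 2) (κ 1) (hκ0 1) (fun e => hs (by linear_combination e))
        (by linear_combination h0) (by linear_combination h1)
    · rw [← h] at h0 h1
      exact key (x 1).1 (x 0).1 (κ 1 + κ 2) (κ 0) (hκ0 0) (fun e => hs (by linear_combination e))
        (by linear_combination h0) (by linear_combination h1)

end Crest.Agent.R32
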