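import Crest.Agent.R32.Count
import Crest.Agent.R32.Labels

/-! Row 32: the total number of bad configurations. -/

set_option autoImplicit false

namespace Crest.Agent.R32

open Finset Matrix

/-- matrices with small determinant and pairwise non-parallel columns -/
noncomputable def bad (R H M : ℕ) : Finset (Matrix (Fin 3) (Fin 3) ℤ) :=
  {Z ∈ mats R | 2 * H * |Z.det| < M ∧ ∀ i j, i ≠ j → Zᵀ i ⨯₃ Zᵀ j ≠ 0}

/-- number of `g ∈ 𝒢` with `g Z₀ = Z` modulo `l` -/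
def nf {l : ℕ} (𝒢 : Finset (Matrix (Fin 3) (Fin 3) (ZMod l)))
    (Z₀ : Matrix (Fin 3) (Fin 3) (ZMod l)) (Z : Matrix (Fin 3) (Fin 3) ℤ) : ℕ :=
  #{g ∈ 𝒢 | g * Z₀ = Z.map (Int.castRingHom (ZMod l))}

lemma det_of_nf {l : ℕ} {𝒢 : Finset (Matrix (Fin 3) (Fin 3) (ZMod l))}
    {Z₀ : Matrix (Fin 3) (Fin 3) (ZMod l)} {Z : Matrix (Fin 3) (Fin 3) ℤ} (h : nf 𝒢 Z₀ Z ≠ 0) :
    ∃ g ∈ 𝒢, g.det * Z₀.det = (Z.det : ℤ) := by
  obtain ⟨g, hg⟩ := card_ne_zero.1 h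
  refine ⟨g, (mem_filter.1 hg).1, ?_⟩
  rw [← det_mul, (mem_filter.1 hg).2, ← RingHom.mapMatrix_apply, ← RingHom.map_det, eq_intCast]

lemma ker_of_nf {l : ℕ} [Fact l.Prime] {𝒢 : Finset (Matrix (Fin 3) (Fin 3) (ZMod l))}
    (h𝒢 : ∀ g ∈ 𝒢, g.det ≠ 0) {Z₀ : Matrix (Fin 3) (Fin 3) (ZMod l)}
    {Z : Matrix (Fin 3) (Fin 3) ℤ} (h : nf 𝒢 Z₀ Z ≠ 0) {k : Fin 3 → ℤ} (hk : Z *ᵥ k = 0) :
    Z₀ *ᵥ red l k = 0 := by
  obtain ⟨g, hg⟩ := card_ne_zero.1 h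
  refine eq_zero_of_mulVec_eq_zero (h𝒢 g (mem_filter.1 hg).1) ?_
  rw [mulVec_mulVec, (mem_filter.1 hg).2]
  funext i
  have := congrArg (Int.castRingHom (ZMod l)) (congrFun hk i)
  simpa [mulVec, dotProduct, red] using this

lemma exists_rel {R H M : ℕ} {Z : Matrix (Fin 3) (Fin 3) ℤ} (hZ : Z ∈ bad R H M)
    (h0 : Z.det = 0) : ∃ k, (Prim k ∧ ∀ i, k i ≠ 0) ∧ nrm k ≤ 2 * R ^ 2 ∧
      (Z *ᵥ k = 0 ∧ Z 0 ⨯₃ Z 1 ≠ 0 ∨ Z *ᵥ k = 0 ∧ Z 0 ⨯₃ Z 2 ≠ 0 ∨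
        Z *ᵥ k = 0 ∧ Z 1 ⨯₃ Z 2 ≠ 0) := by
  obtain ⟨m, -, hp⟩ := mem_filter.1 hZ
  have hne : ∀ k : Fin 3 → ℤ, Prim k → Z *ᵥ k = 0 → ∀ i, k i ≠ 0 := fun k hk hZk i hi => by
    have hr : ∀ a, Z a 0 * k 0 + Z a 1 * k 1 + Z a 2 * k 2 = 0 := fun a => by
      simpa [mulVec, dotProduct, Fin.sum_univ_three] using congrFun hZk a
    have key : ∀ c d : Fin 3, c ≠ d → (∀ a, Z a c * k c + Z a d * k d = 0) → k c = 0 :=
      fun c d hcd h => by
        by_contra hc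
        apply hp c d hcd
        have : ∀ a b, Z a c * Z b d - Z b c * Z a d = 0 := fun a b =>
          (mul_eq_zero.1 (by linear_combination Z b d * h a - Z a d * h b :
            k c * (Z a c * Z b d - Z b c * Z a d) = 0)).resolve_left hc
        simp only [cross_apply, transpose_apply, this]
        funext i; fin_cases i <;> rfl
    apply hk.ne_zero
    fin_cases i
    · have hi : k 0 = 0 := hi
      have a1 := key 1 2 (by decide) fun a => by linear_combination hr a - Z a 0 * hi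
      have a2 := key 2 1 (by decide) fun a => by linear_combination hr a - Z a 0 * hi
      funext j; fin_cases j; exacts [hi, a1, a2]
    · have hi : k 1 = 0 := hi
      have a1 := key 0 2 (by decide) fun a => by linear_combination hr a - Z a 1 * hi
      have a2 := key 2 0 (by decide) fun a => by linear_combination hr a - Z a 1 * hi
      funext j; fin_cases j; exacts [a1, hi, a2]
    · have hi : k 2 = 0 := hi
      have a1 := key 0 1 (by decide) fun a => by linear_combination hr a - Z a 2 * hi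
      have a2 := key 1 0 (by decide) fun a => by linear_combination hr a - Z a 2 * hi
      funext j; fin_cases j; exacts [a1, a2, hi]
  have main : ∀ a b : Fin 3, Z a ⨯₃ Z b ≠ 0 → (∀ i, Z i ⬝ᵥ Z a ⨯₃ Z b = 0) →
      ∃ k, (Prim k ∧ ∀ i, k i ≠ 0) ∧ nrm k ≤ 2 * R ^ 2 ∧ Z *ᵥ k = 0 := fun a b hab h => by
    obtain ⟨j, k, hj, hk, e, hn⟩ := prim_of_cross (nrm_row m a) (nrm_row m b) hab
    have : Z *ᵥ k = 0 := funext fun i => perp_of_dot hj e (h i)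
    exact ⟨k, ⟨hk, hne k hk this⟩, hn, this⟩
  rw [det_fin_three] at h0
  have hall : ∀ a b i : Fin 3, Z i ⬝ᵥ Z a ⨯₃ Z b = 0 := fun a b i => by
    simp only [dotProduct, Fin.sum_univ_three, cross_apply, cons_val_zero, cons_val_one,
      Matrix.cons_val]
    fin_cases a <;> fin_cases b <;> fin_cases i <;>
      simp only [Fin.zero_eta, Fin.mk_one, Fin.reduceFinMk] <;>
      first | ring1 | linear_combination h0 | linear_combination -h0
  by_cases c1 : Z 0 ⨯₃ Z 1 = 0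
  · by_cases c2 : Z 0 ⨯₃ Z 2 = 0
    · by_cases c3 : Z 1 ⨯₃ Z 2 = 0
      · exfalso
        apply hp 0 1 (by decide)
        have a1 := cross_eq_zero c1 0 1
        have a2 := cross_eq_zero c2 0 1
        have a3 := cross_eq_zero c3 0 1
        rw [cross_apply]
        funext i
        fin_cases i
        · exact sub_eq_zero.2 (a3.trans (mul_comm _ _))
        · exact sub_eq_zero.2 ((mul_comm _ _).trans a2.symm)
        · exact sub_eq_zero.2 (a1.trans (mul_comm _ _))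
      · obtain ⟨k, a, b, c⟩ := main 1 2 c3 (hall 1 2)
        exact ⟨k, a, b, Or.inr (Or.inr ⟨c, c3⟩)⟩
    · obtain ⟨k, a, b, c⟩ := main 0 2 c2 (hall 0 2)
      exact ⟨k, a, b, Or.inr (Or.inl ⟨c, c2⟩)⟩
  · obtain ⟨k, a, b, c⟩ := main 0 1 c1 (hall 0 1)
    exact ⟨k, a, b, Or.inl ⟨c, c1⟩⟩

open Classical in
theorem part_one {X : Type*} [Fintype X] (M r q H R b S : ℕ) [Fact M.Prime] [Fact r.Prime]
    (s : X → Fin 3 → ZMod M) (β : ZMod r) (hH : 0 < H) (hr : M ≤ r)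
    (h1 : q * #{x : Fin 3 → X | ∃ t : ℤ, 2 * H * |t| < M ∧ (cols s x).det = t} ≤
      3 * Fintype.card X ^ 3) (hb : 1 ≤ b) (hS : 2 * R ^ 2 < b ^ S) :
    (q * M ^ 8 * r ^ 9 : ℝ) * (∑ x, ∑ τ, ∑ Z ∈ bad R H M with Z.det ≠ 0,
      nf (SLs (ZMod M)) (cols s x) Z * nf (GLs (ZMod r)) (cols (cap β) τ) Z : ℕ) ≤
      (48 * 27 * 18 ^ 3) * (S * b ^ 3 * R ^ 6 * #(SLs (ZMod M)) * #(GLs (ZMod r)) *
        Fintype.card X ^ 3 * r ^ 6) := by
  obtain ⟨V, hV⟩ : ∃ V : ℝ, V = (18 * R ^ 2) ^ 3 * (S * (27 * b ^ 3)) := ⟨_, rfl⟩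
  have hV0 : 0 ≤ V := by rw [hV]; positivity
  have hsm : ∀ Z ∈ bad R H M, 2 * |Z.det| < M := fun Z hZ => by
    have h := (mem_filter.1 hZ).2.1
    have : (1 : ℤ) ≤ H := by exact_mod_cast hH
    nlinarith [abs_nonneg Z.det]
  have hx : ∀ x τ, ((∑ Z ∈ bad R H M with Z.det ≠ 0,
      nf (SLs (ZMod M)) (cols s x) Z * nf (GLs (ZMod r)) (cols (cap β) τ) Z : ℕ) : ℝ) ≤
      (if ∃ t : ℤ, 2 * H * |t| < M ∧ (cols s x).det = t then 1 else 0) * V := fun x τ => by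
    rw [← sum_filter_ne_zero]
    rcases eq_empty_or_nonempty {Z ∈ {Z ∈ bad R H M | Z.det ≠ 0} |
      nf (SLs (ZMod M)) (cols s x) Z * nf (GLs (ZMod r)) (cols (cap β) τ) Z ≠ 0} with
      h0 | ⟨Z₁, hZ₁⟩
    · rw [h0]; simp only [sum_empty, Nat.cast_zero]; positivity
    have hd : ∀ Z, nf (SLs (ZMod M)) (cols s x) Z * nf (GLs (ZMod r)) (cols (cap β) τ) Z ≠ 0 →
        (cols s x).det = (Z.det : ℤ) := fun Z h => by
      obtain ⟨g, hg, e⟩ := det_of_nf (left_ne_zero_of_mul h)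
      rwa [(mem_filter.1 hg).2, one_mul] at e
    obtain ⟨a1, a2⟩ := mem_filter.1 hZ₁
    obtain ⟨a3, a4⟩ := mem_filter.1 a1
    rw [if_pos ⟨Z₁.det, (mem_filter.1 a3).2.1, hd Z₁ a2⟩, one_mul, hV]
    refine le_trans ?_ (count_det R b S hb hS a4)
    rw [Nat.cast_le]
    refine (sum_le_card_nsmul _ _ 1 fun Z hZ => ?_).trans ?_
    · obtain ⟨b1, b2⟩ := mem_filter.1 hZ
      obtain ⟨b3, b4⟩ := mem_filter.1 b1
      have b5 := hsm Z b3
      have c1 : nf (SLs (ZMod M)) (cols s x) Z ≤ 1 := fib_le_one _ (by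
        rw [hd Z b2]; exact cast_ne_zero_of_abs_lt b4 (by omega)) _
      have c2 : nf (GLs (ZMod r)) (cols (cap β) τ) Z ≤ 1 := fib_le_one _ (fun h => by
        obtain ⟨g, -, e⟩ := det_of_nf (right_ne_zero_of_mul b2)
        rw [h, mul_zero] at e
        exact cast_ne_zero_of_abs_lt (M := r) b4 (by omega) e.symm) _
      exact (Nat.mul_le_mul c1 c2)
    · rw [smul_eq_mul, mul_one]
      refine card_le_card fun Z hZ => ?_
      obtain ⟨b1, b2⟩ := mem_filter.1 hZ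
      obtain ⟨b3, -⟩ := mem_filter.1 b1
      refine mem_filter.2 ⟨(mem_filter.1 b3).1, ?_⟩
      by_contra hne
      refine cast_ne_zero_of_abs_lt (M := M) (sub_ne_zero.2 hne) ?_ (by
        rw [Int.cast_sub, ← hd Z b2, ← hd Z₁ a2, sub_self])
      have := hsm Z b3
      have := hsm Z₁ a3
      have := abs_sub Z.det Z₁.det
      omega
  have h2 : ((∑ x, ∑ τ, ∑ Z ∈ bad R H M with Z.det ≠ 0,
      nf (SLs (ZMod M)) (cols s x) Z * nf (GLs (ZMod r)) (cols (cap β) τ) Z : ℕ) : ℝ) ≤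
      #{x : Fin 3 → X | ∃ t : ℤ, 2 * H * |t| < M ∧ (cols s x).det = t} * (r ^ 6 * V) := by
    rw [Nat.cast_sum, card_filter, Nat.cast_sum, sum_mul]
    refine sum_le_sum fun x _ => ?_
    rw [Nat.cast_sum]
    refine (sum_le_card_nsmul _ _ _ fun τ _ => hx x τ).trans (le_of_eq ?_)
    simp only [card_univ, Fintype.card_fun, Fintype.card_prod, ZMod.card, Fintype.card_fin,
      nsmul_eq_mul]
    push_cast
    ring
  have g1 : (M : ℝ) ^ 8 ≤ 4 * #(SLs (ZMod M)) := by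
    have := card_SLs (F := ZMod M); rw [ZMod.card] at this; exact_mod_cast this
  have g2 : (r : ℝ) ^ 9 ≤ 4 * #(GLs (ZMod r)) := by
    have := card_GLs (F := ZMod r); rw [ZMod.card] at this; exact_mod_cast this
  have g3 : (q : ℝ) * #{x : Fin 3 → X | ∃ t : ℤ, 2 * H * |t| < M ∧ (cols s x).det = t} ≤
      3 * Fintype.card X ^ 3 := by exact_mod_cast h1
  refine (mul_le_mul_of_nonneg_left h2 (by positivity)).trans ?_
  calc _ = (M : ℝ) ^ 8 * r ^ 9 * (q * #{x : Fin 3 → X | ∃ t : ℤ, 2 * H * |t| < M ∧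
        (cols s x).det = t}) * (r ^ 6 * V) := by ring
    _ ≤ 4 * #(SLs (ZMod M)) * (4 * #(GLs (ZMod r))) * (3 * Fintype.card X ^ 3) * (r ^ 6 * V) := by
        gcongr
    _ = _ := by rw [hV]; ring

theorem part_two {X : Type*} [Fintype X] (M r q H R b S : ℕ) [Fact M.Prime] [Fact r.Prime]
    (s : X → Fin 3 → ZMod M) (β : ZMod r) (hβ : ¬ IsSquare β) (hq : q ≤ M) (hr : M ^ 3 ≤ r)
    (h2 : q * ∑ κ, zc s κ ≤ 6 * M * Fintype.card X ^ 3)
    (h3 : ∀ x κ, cols s x *ᵥ κ = 0 → ∑ j, κ j = 0 ∨ ∃ j, κ j = 0) (h4 : ∀ x, ∃ i, s x i ≠ 0)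
    (hb : 1 ≤ b) (hS : 2 * R ^ 2 < b ^ S) :
    (q * M ^ 8 * r ^ 9 : ℝ) * (∑ x, ∑ τ, ∑ Z ∈ bad R H M with Z.det = 0,
      nf (SLs (ZMod M)) (cols s x) Z * nf (GLs (ZMod r)) (cols (cap β) τ) Z : ℕ) ≤
      (32 * 3402 * 18 ^ 3) * (S * b ^ 3 * R ^ 6 * #(SLs (ZMod M)) * #(GLs (ZMod r)) *
        Fintype.card X ^ 3 * r ^ 6) := by
  classical
  have hM1 : 1 < M := (Fact.out : M.Prime).one_lt
  have hMr : M ≠ r := by
    have : M ^ 1 < M ^ 3 := Nat.pow_lt_pow_right hM1 (by norm_num)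
    rw [pow_one] at this; omega
  set T := (box (2 * R ^ 2)).filter (fun k => Prim k ∧ ∀ i, k i ≠ 0) with hT
  set A : (Fin 3 → ℤ) → Finset (Matrix (Fin 3) (Fin 3) ℤ) := fun k =>
    {Z ∈ mats R | Z *ᵥ k = 0 ∧ Z 0 ⨯₃ Z 1 ≠ 0 ∨ Z *ᵥ k = 0 ∧ Z 0 ⨯₃ Z 2 ≠ 0 ∨
      Z *ᵥ k = 0 ∧ Z 1 ⨯₃ Z 2 ≠ 0} with hA
  have s1 : ∀ F : Matrix (Fin 3) (Fin 3) ℤ → ℕ, ∑ Z ∈ bad R H M with Z.det = 0, F Z ≤
      ∑ k ∈ T with nrm k < b ^ S, ∑ Z ∈ A k, F Z := fun F => by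
    simp only [hA, sum_filter (s := mats R)]
    rw [sum_comm]
    refine le_trans (sum_le_sum fun Z hZ => ?_) (sum_le_sum_of_subset
      (s := {Z ∈ bad R H M | Z.det = 0}) fun Z hZ => (mem_filter.1 (mem_filter.1 hZ).1).1)
    obtain ⟨k, a1, a2, a3⟩ := exists_rel (mem_filter.1 hZ).1 (mem_filter.1 hZ).2
    refine le_trans ?_ (single_le_sum (a := k) (fun _ _ => Nat.zero_le _)
      (mem_filter.2 ⟨mem_filter.2 ⟨mem_box.2 a2, a1⟩, a2.trans_lt hS⟩))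
    rw [if_pos a3]
  obtain ⟨D, hD⟩ : ∃ D : ℝ, D = 32 * #(SLs (ZMod M)) * #(GLs (ZMod r)) *
    (18 * R ^ 2 * (M * r)) ^ 3 := ⟨_, rfl⟩
  have hD0 : 0 ≤ D := by rw [hD]; positivity
  have s2 : ∀ x τ, ∀ k ∈ T, (M ^ 9 * r ^ 9 : ℝ) * (∑ Z ∈ A k,
      nf (SLs (ZMod M)) (cols s x) Z * nf (GLs (ZMod r)) (cols (cap β) τ) Z : ℕ) ≤
      (if cols s x *ᵥ red M k = 0 then 1 else 0) * (if cols (cap β) τ *ᵥ red r k = 0 then 1 else 0)
        * (D / (nrm k : ℝ) ^ 3) := fun x τ k hk => by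
    have hk' := (mem_filter.1 hk).2.1
    have hAk : ∀ Z ∈ A k, Z *ᵥ k = 0 := fun Z hZ => by
      rcases (mem_filter.1 hZ).2 with h | h | h <;> exact h.1
    by_cases c1 : cols s x *ᵥ red M k = 0
    swap
    · rw [sum_eq_zero fun Z hZ => by
        rw [of_not_not fun h => c1 (ker_of_nf (fun g hg => by
          rw [(mem_filter.1 hg).2]; exact one_ne_zero) h (hAk Z hZ)), zero_mul]]
      simp [c1]
    by_cases c2 : cols (cap β) τ *ᵥ red r k = 0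
    swap
    · rw [sum_eq_zero fun Z hZ => by
        rw [of_not_not fun h => c2 (ker_of_nf (𝒢 := GLs (ZMod r))
          (fun g hg => (mem_filter.1 hg).2) h (hAk Z hZ)),
          mul_zero]]
      simp [c2]
    have d1 : (cols s x).det = 0 := exists_mulVec_eq_zero_iff.1 ⟨_, hk'.red_ne_zero M, c1⟩
    have e1 : M ^ 9 * r ^ 9 * ∑ Z ∈ A k,
        nf (SLs (ZMod M)) (cols s x) Z * nf (GLs (ZMod r)) (cols (cap β) τ) Z ≤
        32 * #(SLs (ZMod M)) * #(GLs (ZMod r)) * ∑ Z ∈ A k,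
          (∏ i, rowc (cols s x) (red M (Z i))) * ∏ i, rowc (cols (cap β) τ) (red r (Z i)) := by
      rw [mul_sum, mul_sum]
      refine sum_le_sum fun Z _ => ?_
      have f1 := fib_SLs d1 (Z.map (Int.castRingHom (ZMod M)))
      have f2 := fib_GLs (cols (cap β) τ) (Z.map (Int.castRingHom (ZMod r)))
      rw [ZMod.card] at f1 f2
      calc _ = nf (SLs (ZMod M)) (cols s x) Z * M ^ 9 *
            (nf (GLs (ZMod r)) (cols (cap β) τ) Z * r ^ 9) := by ring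
        _ ≤ (8 * #(SLs (ZMod M)) * ∏ i, rowc (cols s x) (red M (Z i))) *
            (4 * #(GLs (ZMod r)) * ∏ i, rowc (cols (cap β) τ) (red r (Z i))) :=
            Nat.mul_le_mul f1 f2
        _ = _ := by ring
    have e2 := count_rel R M r hMr hk' (cols s x) (cols (cap β) τ) (h4 _) (cap_ne_zero β _)
    rw [if_pos c1, if_pos c2, one_mul, one_mul]
    calc _ ≤ 32 * #(SLs (ZMod M)) * #(GLs (ZMod r)) * ((∑ Z ∈ A k,
          (∏ i, rowc (cols s x) (red M (Z i))) * ∏ i, rowc (cols (cap β) τ) (red r (Z i)) : ℕ) : ℝ)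
          := by exact_mod_cast e1
      _ ≤ 32 * #(SLs (ZMod M)) * #(GLs (ZMod r)) *
          ((18 * R ^ 2 * (M * r)) ^ 3 * (1 / (nrm k : ℝ) ^ 3)) := by gcongr
      _ = _ := by rw [hD]; ring
  have s3 : (M ^ 9 * r ^ 9 : ℝ) * (∑ x, ∑ τ, ∑ Z ∈ bad R H M with Z.det = 0,
      nf (SLs (ZMod M)) (cols s x) Z * nf (GLs (ZMod r)) (cols (cap β) τ) Z : ℕ) ≤
      D * ∑ k ∈ T with nrm k < b ^ S,
        (zc s (red M k) * zc (cap β) (red r k) : ℕ) / (nrm k : ℝ) ^ 3 := by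
    calc _ ≤ (M ^ 9 * r ^ 9 : ℝ) * (∑ x, ∑ τ, ∑ k ∈ T with nrm k < b ^ S, ∑ Z ∈ A k,
          nf (SLs (ZMod M)) (cols s x) Z * nf (GLs (ZMod r)) (cols (cap β) τ) Z : ℕ) := by
          gcongr with x _ τ _
          exact s1 _
      _ = ∑ x, ∑ τ, ∑ k ∈ T with nrm k < b ^ S, (M ^ 9 * r ^ 9 : ℝ) * (∑ Z ∈ A k,
          nf (SLs (ZMod M)) (cols s x) Z * nf (GLs (ZMod r)) (cols (cap β) τ) Z : ℕ) := by
          simp only [← mul_sum, ← Nat.cast_sum]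
      _ ≤ ∑ x, ∑ τ, ∑ k ∈ T with nrm k < b ^ S, (if cols s x *ᵥ red M k = 0 then 1 else 0) *
          (if cols (cap β) τ *ᵥ red r k = 0 then 1 else 0) * (D / (nrm k : ℝ) ^ 3) :=
          sum_le_sum fun x _ => sum_le_sum fun τ _ => sum_le_sum fun k hk =>
            s2 x τ k (mem_filter.1 hk).1
      _ = _ := by
          rw [sum_congr rfl fun x _ => sum_comm, sum_comm, mul_sum]
          refine sum_congr rfl fun k _ => ?_
          simp only [← sum_mul, ← mul_sum, zc, card_filter]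
          push_cast
          ring
  have hM0 : (0 : ℝ) < M := by exact_mod_cast (by omega : 0 < M)
  have s4 := shells T (fun k => q * M ^ 2 * ((zc s (red M k) * zc (cap β) (red r k) : ℕ) : ℝ))
    (fun _ => by positivity) (fun k hk => (mem_filter.1 hk).2.1.ne_zero)
    (3402 * Fintype.card X ^ 3 * r ^ 3) b hb (fun K hK => by
      rw [← mul_sum]
      exact_mod_cast weight M r q s β hβ hq hr h2 h3 T (fun k hk => (mem_filter.1 hk).2) K hK) S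
  simp only [mul_div_assoc, ← mul_sum] at s4
  refine le_of_mul_le_mul_left ?_ (pow_pos hM0 3)
  calc _ = q * M ^ 2 * ((M ^ 9 * r ^ 9 : ℝ) * (∑ x, ∑ τ, ∑ Z ∈ bad R H M with Z.det = 0,
        nf (SLs (ZMod M)) (cols s x) Z * nf (GLs (ZMod r)) (cols (cap β) τ) Z : ℕ)) := by ring
    _ ≤ q * M ^ 2 * (D * ∑ k ∈ T with nrm k < b ^ S,
        (zc s (red M k) * zc (cap β) (red r k) : ℕ) / (nrm k : ℝ) ^ 3) := by gcongr
    _ = D * (q * M ^ 2 * ∑ k ∈ T with nrm k < b ^ S,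
        (zc s (red M k) * zc (cap β) (red r k) : ℕ) / (nrm k : ℝ) ^ 3) := by ring
    _ ≤ D * (S * (3402 * Fintype.card X ^ 3 * r ^ 3 * b ^ 3)) := by gcongr
    _ = _ := by rw [hD]; ring

end Crest.Agent.R32
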