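import Crest.Agent.R32.Side

/-! Row 32: the total weight of integer relations of bounded size. -/

set_option autoImplicit false

namespace Crest.Agent.R32

open Finset Matrix

/-- reduction modulo `l` -/
def red (l : ℕ) (k : Fin 3 → ℤ) : Fin 3 → ZMod l := fun i => (k i : ZMod l)

lemma card_res (l K : ℕ) (hl : 0 < l) (h : l ≤ 3 * K) (κ : ZMod l) :
    l * #((Icc (-(K : ℤ)) K).filter fun a : ℤ => (a : ZMod l) = κ) ≤ 5 * K := by
  obtain ⟨W, hW⟩ : ∃ W, W = 2 * K / l := ⟨_, rfl⟩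
  have hl' : (0 : ℤ) < l := by exact_mod_cast hl
  have h1 : #((Icc (-(K : ℤ)) K).filter fun a : ℤ => (a : ZMod l) = κ) ≤ #(Icc (0 : ℤ) W) := by
    refine card_le_card_of_injOn (fun a : ℤ => (a + K) / l) (fun a ha => ?_) (fun a ha b hb e => ?_)
    · have := mem_Icc.1 (mem_filter.1 (mem_coe.1 ha)).1
      simp only [coe_Icc, Set.mem_Icc]
      refine ⟨Int.ediv_nonneg (by omega) hl'.le, ?_⟩
      rw [hW]; push_cast
      exact Int.ediv_le_ediv hl' (by omega)
    · have e1 : ((a + K : ℤ) : ZMod l) = ((b + K : ℤ) : ZMod l) := by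
        push_cast
        rw [(mem_filter.1 (mem_coe.1 ha)).2, (mem_filter.1 (mem_coe.1 hb)).2]
      rw [ZMod.intCast_eq_intCast_iff'] at e1
      have b1 := Int.emod_add_mul_ediv (a + K) l
      have b2 := Int.emod_add_mul_ediv (b + K) l
      simp only at e
      rw [e1, e] at b1
      omega
  rw [Int.card_Icc] at h1
  have c2 : ((W : ℤ) + 1 - 0).toNat = W + 1 := by omega
  rw [c2] at h1
  have c4 : W * l ≤ 2 * K := by rw [hW]; exact Nat.div_mul_le_self _ _
  calc _ ≤ l * (W + 1) := Nat.mul_le_mul_left _ h1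
    _ = W * l + l := by ring
    _ ≤ _ := by omega

lemma res_avg (l K : ℕ) [NeZero l] (h : l ≤ 3 * K) (φ : (Fin 3 → ZMod l) → ℕ) :
    l ^ 3 * ∑ k ∈ box K, φ (red l k) ≤ 125 * K ^ 3 * ∑ κ, φ κ := by
  rw [← sum_fiberwise_of_maps_to (s := box K) (t := univ) (g := red l) (fun _ _ => mem_univ _),
    mul_sum, mul_sum]
  refine sum_le_sum fun κ _ => ?_
  rw [sum_congr rfl (g := fun _ => φ κ) (fun k hk => by rw [(mem_filter.1 hk).2]), sum_const,
    smul_eq_mul, ← mul_assoc]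
  refine Nat.mul_le_mul_right _ ?_
  have h1 : #{k ∈ box K | red l k = κ} ≤
      ∏ i, #((Icc (-(K : ℤ)) K).filter fun a : ℤ => (a : ZMod l) = κ i) := by
    rw [← Fintype.card_piFinset]
    refine card_le_card fun k hk => Fintype.mem_piFinset.2 fun i => mem_filter.2
      ⟨Fintype.mem_piFinset.1 (mem_filter.1 hk).1 i, congrFun (mem_filter.1 hk).2 i⟩
  rw [Fin.prod_univ_three] at h1
  have h2 := fun i => card_res l K (NeZero.pos l) h (κ i)
  have h3 := Nat.mul_le_mul (Nat.mul_le_mul (h2 0) (h2 1)) (h2 2)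
  calc _ ≤ l ^ 3 * _ := Nat.mul_le_mul_left _ h1
    _ = _ := by ring
    _ ≤ _ := h3
    _ = _ := by ring

lemma Prim.red_ne_zero {k : Fin 3 → ℤ} (h : Prim k) (l : ℕ) [Fact l.Prime] : red l k ≠ 0 := by
  intro h0
  obtain ⟨α, hα⟩ := h
  have := congrArg (Int.castRingHom (ZMod l)) hα
  have h1 : ∀ i, (k i : ZMod l) = 0 := congrFun h0
  simp [dotProduct, h1] at this

lemma le_of_cast_eq_zero {l : ℕ} {x : ℤ} (h0 : x ≠ 0) (h : (x : ZMod l) = 0) : (l : ℤ) ≤ |x| :=
  Int.le_of_dvd (abs_pos.2 h0) ((dvd_abs _ _).2 ((ZMod.intCast_zmod_eq_zero_iff_dvd _ _).1 h))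

theorem weight {X : Type*} [Fintype X] (M r q : ℕ) [Fact M.Prime] [Fact r.Prime]
    (s : X → Fin 3 → ZMod M) (β : ZMod r) (hβ : ¬ IsSquare β) (hq : q ≤ M) (hr : M ^ 3 ≤ r)
    (h2 : q * ∑ κ, zc s κ ≤ 6 * M * Fintype.card X ^ 3)
    (h3 : ∀ x κ, cols s x *ᵥ κ = 0 → ∑ j, κ j = 0 ∨ ∃ j, κ j = 0)
    (T : Finset (Fin 3 → ℤ)) (hT : ∀ k ∈ T, Prim k ∧ ∀ i, k i ≠ 0) (K : ℕ) (hK : 1 ≤ K) :
    q * M ^ 2 * ∑ k ∈ T with nrm k ≤ K, zc s (red M k) * zc (cap β) (red r k) ≤
      3402 * Fintype.card X ^ 3 * r ^ 3 * K ^ 3 := by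
  classical
  obtain ⟨n, hn⟩ : ∃ n, n = Fintype.card X ^ 3 := ⟨_, rfl⟩
  rw [← hn] at h2 ⊢
  have hz : ∀ κ, zc s κ ≤ n := fun κ => (card_filter_le _ _).trans (by simp [hn])
  have hpt : ∀ k ∈ T.filter (fun k => nrm k ≤ K), zc s (red M k) * zc (cap β) (red r k) ≤
      n * r ^ 2 + (if r ≤ 3 * K then n * r ^ 4 *
        (if ∑ j, red r k j = 0 ∧ ∃ j, red r k j = 0 then 1 else 0) else 0) +
        (if M ≤ 3 * K then 4 * r ^ 3 * zc s (red M k) else 0) := fun k hk => by
    obtain ⟨hkT, hkK⟩ := mem_filter.1 hk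
    obtain ⟨hp, hk0⟩ := hT k hkT
    have hkK' : ∀ i, |k i| ≤ K := fun i => (le_nrm k i).trans (by exact_mod_cast hkK)
    by_cases hs : ∑ j, red r k j = 0
    · by_cases hj : ∃ j, red r k j = 0
      · have a1 : r ≤ 3 * K := by
          obtain ⟨j, hj⟩ := hj
          have := (le_of_cast_eq_zero (hk0 j) hj).trans (hkK' j)
          omega
        have a2 := zc_cap_four β (hp.red_ne_zero r)
        rw [ZMod.card] at a2
        have := Nat.mul_le_mul (hz (red M k)) a2
        rw [if_pos a1, if_pos ⟨hs, hj⟩]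
        omega
      · push Not at hj
        have a2 := zc_cap_two hβ hs hj
        rw [ZMod.card] at a2
        have := Nat.mul_le_mul (hz (red M k)) a2
        omega
    · rcases Nat.eq_zero_or_pos (zc s (red M k)) with h0 | h0
      · rw [h0]; omega
      obtain ⟨x, hx⟩ := card_pos.1 h0
      have a1 : M ≤ 3 * K := by
        rcases h3 x _ (mem_filter.1 hx).2 with h | ⟨j, h⟩
        · have b1 : k 0 + k 1 + k 2 ≠ 0 := fun e => hs (by
            have := congrArg (Int.castRingHom (ZMod r)) e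
            simpa [red, Fin.sum_univ_three] using this)
          have b2 := le_of_cast_eq_zero (l := M) b1 (by simpa [red, Fin.sum_univ_three] using h)
          have b3 := abs_add_three (k 0) (k 1) (k 2)
          have := hkK' 0; have := hkK' 1; have := hkK' 2
          omega
        · have := (le_of_cast_eq_zero (hk0 j) h).trans (hkK' j)
          omega
      have a2 := zc_cap_three β hs
      rw [ZMod.card] at a2
      have := Nat.mul_le_mul_left (zc s (red M k)) a2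
      rw [if_pos a1, mul_comm (4 * r ^ 3)]
      omega
  have hsub : T.filter (fun k => nrm k ≤ K) ⊆ box K := fun k hk => mem_box.2 (mem_filter.1 hk).2
  have h4 := (sum_le_sum hpt).trans (sum_le_sum_of_subset hsub)
  rw [sum_add_distrib, sum_add_distrib, sum_const, smul_eq_mul] at h4
  have hqM : q * M ^ 2 ≤ r := le_trans (by rw [pow_succ' M 2]; exact Nat.mul_le_mul_right _ hq) hr
  have b1 : #(box K) ≤ 27 * K ^ 3 := by exact_mod_cast card_box hK
  have b2 : ∑ k ∈ box K, (if r ≤ 3 * K then n * r ^ 4 *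
      (if ∑ j, red r k j = 0 ∧ ∃ j, red r k j = 0 then 1 else 0) else 0) ≤
      375 * n * r ^ 2 * K ^ 3 := by
    by_cases h : r ≤ 3 * K
    · simp only [if_pos h]
      have c1 := res_avg r K h (fun κ => if ∑ j, κ j = 0 ∧ ∃ j, κ j = 0 then 1 else 0)
      have c2 := card_exc (F := ZMod r)
      rw [ZMod.card, card_filter] at c2
      rw [← mul_sum]
      calc _ = n * r * (r ^ 3 * ∑ k ∈ box K,
            (if ∑ j, red r k j = 0 ∧ ∃ j, red r k j = 0 then 1 else 0)) := by ring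
        _ ≤ n * r * (125 * K ^ 3 * (3 * r)) :=
            Nat.mul_le_mul_left _ (c1.trans (Nat.mul_le_mul_left _ c2))
        _ = _ := by ring
    · simp [h]
  have b3 : q * M ^ 2 * ∑ k ∈ box K, (if M ≤ 3 * K then 4 * r ^ 3 * zc s (red M k) else 0) ≤
      3000 * n * r ^ 3 * K ^ 3 := by
    by_cases h : M ≤ 3 * K
    · simp only [if_pos h]
      have c1 := res_avg M K h (zc s)
      rw [← mul_sum]
      refine Nat.le_of_mul_le_mul_left (c := M) ?_ (Fact.out : M.Prime).pos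
      calc _ = 4 * r ^ 3 * q * (M ^ 3 * ∑ k ∈ box K, zc s (red M k)) := by ring
        _ ≤ 4 * r ^ 3 * q * (125 * K ^ 3 * ∑ κ, zc s κ) := Nat.mul_le_mul_left _ c1
        _ = 500 * r ^ 3 * K ^ 3 * (q * ∑ κ, zc s κ) := by ring
        _ ≤ 500 * r ^ 3 * K ^ 3 * (6 * M * n) := Nat.mul_le_mul_left _ h2
        _ = _ := by ring
    · simp [h]
  refine (Nat.mul_le_mul_left _ h4).trans ?_
  rw [mul_add, mul_add]
  have d1 : q * M ^ 2 * (#(box K) * (n * r ^ 2)) ≤ r * (27 * K ^ 3 * (n * r ^ 2)) := by gcongr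
  have d2 := Nat.mul_le_mul hqM b2
  refine (add_le_add (add_le_add d1 d2) b3).trans (le_of_eq ?_)
  ring

end Crest.Agent.R32
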